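import Mathlib

/-!
Row 118: the analytic step (Beurling–Kato). The bound `t ‖A T_t‖ ≤ C` is obtained by a direct
bootstrap from the binomial expansion of `((1 - T_s) / 2) ^ n`, and the projection on degree one is
the series of `sinc (π (κ - 1)) e^{-a (κ - 1)}`.
-/

set_option autoImplicit false

namespace Crest.Agent.R118

open Finset

universe u

theorem analytic_boot {f : ℝ → ℝ} {C H₀ : ℝ} (h0 : ∀ t, 0 < t → f t ≤ H₀)
    (h : ∀ H, (∀ t, 0 < t → f t ≤ H) → ∀ t, 0 < t → f t ≤ H / 2 + C) : ∀ t, 0 < t → f t ≤ 2 * C := by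
  have hb : BddAbove (f '' Set.Ioi 0) := ⟨H₀, by rintro _ ⟨t, ht, rfl⟩; exact h0 t ht⟩
  have h1 : ∀ t, 0 < t → f t ≤ sSup (f '' Set.Ioi 0) := fun t ht => le_csSup hb ⟨t, ht, rfl⟩
  have h2 : sSup (f '' Set.Ioi 0) ≤ sSup (f '' Set.Ioi 0) / 2 + C :=
    csSup_le ⟨f 1, 1, Set.mem_Ioi.2 one_pos, rfl⟩ (by rintro _ ⟨t, ht, rfl⟩; exact h _ h1 t ht)
  intro t ht
  linarith [h1 t ht]

theorem analytic_congr {f g : ℕ → ℝ} {a b : ℝ} (h : HasSum f a) (h1 : ∀ n, g n = f n) (h2 : b = a) :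
    HasSum g b := by
  rw [h2, show g = f from funext h1]; exact h

theorem analytic_sinc (k : ℕ) :
    HasSum (fun n : ℕ => (-1 : ℝ) ^ n * (Real.pi * ((k : ℝ) - 1)) ^ (2 * n) / (2 * n + 1).factorial)
      (if k = 1 then 1 else 0) := by
  split_ifs with h
  · subst h
    have := hasSum_single (f := fun n : ℕ => (-1 : ℝ) ^ n * (Real.pi * (((1 : ℕ) : ℝ) - 1)) ^ (2 * n) /
      (2 * n + 1).factorial) 0 (fun n hn => by simp [hn])
    simpa using this
  · have hx : Real.pi * ((k : ℝ) - 1) ≠ 0 :=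
      mul_ne_zero Real.pi_ne_zero (sub_ne_zero.2 (by exact_mod_cast h))
    have h1 := (Real.hasSum_sin (Real.pi * ((k : ℝ) - 1))).div_const (Real.pi * ((k : ℝ) - 1))
    have h2 : Real.sin (Real.pi * ((k : ℝ) - 1)) = 0 := by
      have := Real.sin_int_mul_pi ((k : ℤ) - 1)
      rw [← this]; congr 1; push_cast; ring
    rw [h2, zero_div] at h1
    refine analytic_congr h1 (fun n => ?_) rfl
    generalize Real.pi * ((k : ℝ) - 1) = x at hx
    field_simp
    ring

section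
variable {R : Type u} [NormedRing R] [NormedAlgebra ℝ R] {ι : Type} [Fintype ι]
  {Φ : (ι → ℝ) →L[ℝ] R}

omit [Fintype ι] in
theorem analytic_mul (hm : ∀ m m', Φ (m * m') = Φ m * Φ m') {m m' : ι → ℝ} {a b : ℝ}
    (ha : ‖Φ m‖ ≤ a) (hb : ‖Φ m'‖ ≤ b) : ‖Φ (m * m')‖ ≤ a * b := by
  rw [hm]
  exact (norm_mul_le _ _).trans (mul_le_mul ha hb (norm_nonneg _) ((norm_nonneg _).trans ha))

omit [Fintype ι] in
theorem analytic_pow (hm : ∀ m m', Φ (m * m') = Φ m * Φ m') (h1 : ‖Φ 1‖ ≤ 1) {m : ι → ℝ} {a : ℝ}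
    (ha : ‖Φ m‖ ≤ a) (j : ℕ) : ‖Φ (m ^ j)‖ ≤ a ^ j := by
  induction j with
  | zero => simpa using h1
  | succ j ih => rw [pow_succ, pow_succ]; exact analytic_mul hm ih ha

/-- One bootstrap step. -/
theorem analytic_step (hm : ∀ m m', Φ (m * m') = Φ m * Φ m') (κ : ι → ℝ)
    (he : ∀ t, 0 ≤ t → ‖Φ fun i => Real.exp (-(κ i * t))‖ ≤ 1) {n : ℕ} (hn : 1 ≤ n) {θ : ℝ}
    (hθ : ((n : ℝ) + 1) * θ ≤ 1 / 4)
    (hu : ∀ s, 0 ≤ s → ‖Φ fun i => ((1 - Real.exp (-(κ i * s))) / 2) ^ n‖ ≤ θ) (H : ℝ)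
    (hH : ∀ t, 0 < t → t * ‖Φ fun i => κ i * Real.exp (-(κ i * t))‖ ≤ H) (t : ℝ) (ht : 0 < t) :
    t * ‖Φ fun i => κ i * Real.exp (-(κ i * t))‖ ≤ H / 2 + 4 * n * (n + 1) ^ 2 := by
  have hn' : (1 : ℝ) ≤ n := by exact_mod_cast hn
  have hH0 : 0 ≤ H := le_trans (by positivity) (hH 1 one_pos)
  have hθ0 : 0 ≤ θ := (norm_nonneg _).trans (hu 0 le_rfl)
  set a := n / 2 with ha
  have han : a ≤ n := Nat.div_le_self _ _
  have han' : (a : ℝ) ≤ n := by exact_mod_cast han
  let c : ℕ → ℝ := fun k => (-1) ^ k * n.choose k / 2 ^ n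
  have hc : ∀ x : ℝ, ((1 - x) / 2) ^ n = ∑ k ∈ range (n + 1), c k * x ^ k := by
    intro x
    rw [div_pow, sub_eq_neg_add, add_pow, sum_div]
    refine sum_congr rfl fun k _ => ?_
    simp only [c]; rw [neg_pow]; ring
  have hc1 : ∀ k, |c k| ≤ 1 := by
    intro k
    simp only [c, abs_div, abs_mul, abs_pow, abs_neg, abs_one, one_pow, one_mul, Nat.abs_cast,
      abs_two]
    rw [div_le_one (by positivity)]
    exact_mod_cast Nat.choose_le_two_pow n k
  have hca : 1 ≤ (n + 1) * |c a| := by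
    simp only [c, abs_div, abs_mul, abs_pow, abs_neg, abs_one, one_pow, one_mul, Nat.abs_cast,
      abs_two]
    rw [← mul_div_assoc, le_div_iff₀ (by positivity), one_mul]
    have := sum_le_card_nsmul (range (n + 1)) (fun k => n.choose k) _
      fun k _ => Nat.choose_le_middle k n
    rw [Nat.sum_range_choose, card_range, smul_eq_mul] at this
    exact_mod_cast this
  set δ := t / (2 * n) with hδ
  have hδ0 : 0 < δ := by positivity
  have hnδ : n * δ = t / 2 := by rw [hδ]; field_simp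
  let g : ℝ → ι → ℝ := fun s => (c a * s) • (fun i => κ i * Real.exp (-(κ i * t))) +
    ∑ k ∈ (range (n + 1)).erase a, (c k / ((k : ℝ) - a)) • ((fun i => Real.exp (-(κ i * t))) -
      fun i => Real.exp (-(κ i * (t + ((k : ℝ) - a) * s))))
  have hg : ∀ s, HasDerivAt g ((fun i => κ i * Real.exp (-(κ i * (t - a * s)))) *
      fun i => ((1 - Real.exp (-(κ i * s))) / 2) ^ n) s := by
    intro s
    rw [hasDerivAt_pi]
    intro i
    simp only [g, Pi.add_apply, Pi.smul_apply, Finset.sum_apply, Pi.sub_apply, smul_eq_mul,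
      Pi.mul_apply]
    have d1 : ∀ k ∈ (range (n + 1)).erase a, HasDerivAt (fun s => c k / ((k : ℝ) - a) *
        (Real.exp (-(κ i * t)) - Real.exp (-(κ i * (t + ((k : ℝ) - a) * s)))))
        (c k * (κ i * Real.exp (-(κ i * (t + ((k : ℝ) - a) * s))))) s := by
      intro k hk
      have hka : (k : ℝ) - a ≠ 0 := sub_ne_zero.2 (by exact_mod_cast (mem_erase.1 hk).1)
      have := ((((((hasDerivAt_id' s).const_mul ((k : ℝ) - a)).const_add t).const_mul
        (κ i)).neg.exp).const_sub (Real.exp (-(κ i * t)))).const_mul (c k / ((k : ℝ) - a))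
      refine HasDerivAt.congr_deriv this ?_
      simp only [Pi.neg_apply]
      field_simp
    have d2 := (((hasDerivAt_id' s).const_mul (c a)).mul_const
      (κ i * Real.exp (-(κ i * t)))).fun_add (HasDerivAt.fun_sum d1)
    refine d2.congr_deriv (Eq.symm ?_)
    rw [hc, mul_sum, ← add_sum_erase _ _ (mem_range.2 (Nat.lt_succ_of_le han))]
    congr 1
    · rw [← Real.exp_nat_mul, show -(κ i * t) = -(κ i * (t - a * s)) + a * -(κ i * s) by ring,
        Real.exp_add]
      ring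
    · refine sum_congr rfl fun k _ => ?_
      rw [← Real.exp_nat_mul, show -(κ i * (t + ((k : ℝ) - a) * s)) =
        -(κ i * (t - a * s)) + k * -(κ i * s) by ring, Real.exp_add]
      ring
  have hmv := norm_image_sub_le_of_norm_deriv_le_segment' (f := fun s => Φ (g s)) (a := 0) (b := δ)
    (C := 2 * H / t * θ)
    (fun s _ => (Φ.hasFDerivAt.comp_hasDerivAt s (hg s)).hasDerivWithinAt) (by
      intro s hs
      refine analytic_mul hm ?_ (hu s hs.1)
      have h1 : t / 2 ≤ t - a * s := by nlinarith [hs.1, hs.2]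
      have h2 := hH (t - a * s) (by linarith)
      rw [le_div_iff₀ ht]
      nlinarith [norm_nonneg (Φ fun i => κ i * Real.exp (-(κ i * (t - a * s))))])
    δ ⟨hδ0.le, le_rfl⟩
  have hg0 : g 0 = 0 := by simp [g]
  rw [hg0, map_zero, sub_zero, sub_zero] at hmv
  have hrest : ‖Φ (∑ k ∈ (range (n + 1)).erase a, (c k / ((k : ℝ) - a)) •
      ((fun i => Real.exp (-(κ i * t))) -
        fun i => Real.exp (-(κ i * (t + ((k : ℝ) - a) * δ)))))‖ ≤ 2 * (n + 1) := by
    rw [map_sum]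
    refine (norm_sum_le _ _).trans ((sum_le_card_nsmul _ _ 2 fun k hk => ?_).trans ?_)
    · have hka : (1 : ℝ) ≤ |(k : ℝ) - a| := by
        have : (1 : ℤ) ≤ |(k : ℤ) - a| :=
          Int.one_le_abs (sub_ne_zero.2 (by exact_mod_cast (mem_erase.1 hk).1))
        exact_mod_cast this
      rw [map_smul, norm_smul, map_sub, Real.norm_eq_abs, abs_div]
      have h1 : |c k| / |(k : ℝ) - a| ≤ 1 := (div_le_one (by linarith)).2 ((hc1 k).trans hka)
      have h2 : 0 ≤ t + ((k : ℝ) - a) * δ := by nlinarith [Nat.cast_nonneg (α := ℝ) k]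
      have h3 := (norm_sub_le _ _).trans (add_le_add (he t ht.le) (he _ h2))
      calc _ ≤ 1 * (1 + 1) := mul_le_mul h1 h3 (norm_nonneg _) zero_le_one
        _ = 2 := by norm_num
    · have : (((range (n + 1)).erase a).card : ℝ) ≤ n + 1 := by
        have := card_erase_le (s := range (n + 1)) (a := a)
        rw [card_range] at this
        exact_mod_cast this
      rw [nsmul_eq_mul]; linarith
  have hmain : |c a| * δ * ‖Φ fun i => κ i * Real.exp (-(κ i * t))‖ ≤
      2 * H / t * θ * δ + 2 * (n + 1) := by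
    have e : Φ ((c a * δ) • fun i => κ i * Real.exp (-(κ i * t))) = Φ (g δ) - _ :=
      eq_sub_of_add_eq (map_add Φ _ _).symm
    have := norm_sub_le (Φ (g δ)) _ |>.trans (add_le_add hmv hrest)
    rwa [← e, map_smul, norm_smul, Real.norm_eq_abs, abs_mul, abs_of_pos hδ0] at this
  have e1 : 2 * H / t * θ * δ = H * θ / n := by rw [hδ]; field_simp
  set y := ‖Φ fun i => κ i * Real.exp (-(κ i * t))‖
  have hy : 0 ≤ y := norm_nonneg _
  have h2 : t * y ≤ 2 * n * (n + 1) * (|c a| * δ * y) := by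
    have : 2 * n * (n + 1) * (|c a| * δ * y) = ((n + 1) * |c a|) * (t * y) := by
      rw [show t = 2 * (n * δ) by rw [hnδ]; ring]; ring
    rw [this]
    exact le_mul_of_one_le_left (by positivity) hca
  refine h2.trans ((mul_le_mul_of_nonneg_left hmain (by positivity)).trans ?_)
  rw [e1]
  have : 2 * (n : ℝ) * (n + 1) * (H * θ / n + 2 * (n + 1)) =
      2 * H * ((n + 1) * θ) + 4 * n * (n + 1) ^ 2 := by field_simp; ring
  rw [this]
  nlinarith

end

theorem analytic (N : ℕ) (hN : 1 ≤ N) : ∃ K : ℝ,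
    ∀ {R : Type u} [NormedRing R] [NormedAlgebra ℝ R] [CompleteSpace R]
      (ι : Type) [Fintype ι] (deg : ι → ℕ) (Φ : (ι → ℝ) →L[ℝ] R),
      (∀ m m', Φ (m * m') = Φ m * Φ m') →
      (∀ x ∈ Set.Icc (0 : ℝ) 1, ‖Φ fun i => x ^ deg i‖ ≤ 1) →
      (∀ x ∈ Set.Icc (0 : ℝ) 1, ‖Φ fun i => ((1 - x ^ deg i) / 2) ^ N‖ ≤ 3 / 4) →
      ‖Φ fun i => if deg i = 1 then 1 else 0‖ ≤ K := by
  obtain ⟨l, hl1, hl⟩ : ∃ l : ℕ, 1 ≤ l ∧ (((N * l : ℕ) : ℝ) + 1) * (3 / 4) ^ l ≤ 1 / 4 := by
    have h1 := (tendsto_self_mul_const_pow_of_lt_one (r := (3 / 4 : ℝ)) (by norm_num)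
      (by norm_num)).const_mul ((N : ℝ) + 1)
    rw [mul_zero] at h1
    obtain ⟨l, h2, h3⟩ := ((h1.eventually (gt_mem_nhds (show (0 : ℝ) < 1 / 4 by norm_num))).and
      (Filter.eventually_ge_atTop 1)).exists
    refine ⟨l, h3, le_trans ?_ h2.le⟩
    have : (1 : ℝ) ≤ l := by exact_mod_cast h3
    rw [← mul_assoc]
    gcongr
    push_cast; nlinarith
  set n := N * l with hn
  have hn1 : 1 ≤ n := Nat.mul_pos hN hl1
  have hn' : (1 : ℝ) ≤ n := by exact_mod_cast hn1
  set C : ℝ := 2 * (4 * n * (n + 1) ^ 2) with hC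
  have hC0 : 0 < C := by positivity
  set a : ℝ := 4 * Real.pi * C with ha
  have ha0 : 0 < a := by positivity
  refine ⟨Real.exp a * Real.exp (4 * Real.pi) * (1 - 3 / 4)⁻¹, ?_⟩
  intro R _ _ _ ι _ deg Φ hm h1 h2
  have hx : ∀ t : ℝ, 0 ≤ t → Real.exp (-t) ∈ Set.Icc (0 : ℝ) 1 := fun t ht =>
    ⟨(Real.exp_pos _).le, Real.exp_le_one_iff.2 (by linarith)⟩
  have ee : ∀ (t : ℝ) i, Real.exp (-t) ^ deg i = Real.exp (-((deg i : ℝ) * t)) := fun t i => by
    rw [← Real.exp_nat_mul]; congr 1; ring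
  have he : ∀ t, 0 ≤ t → ‖Φ fun i => Real.exp (-((deg i : ℝ) * t))‖ ≤ 1 := fun t ht => by
    simpa only [ee] using h1 _ (hx t ht)
  have hone : ‖Φ 1‖ ≤ 1 := by
    have := h1 1 ⟨zero_le_one, le_rfl⟩
    simp only [one_pow] at this
    exact this
  have hu : ∀ s, 0 ≤ s →
      ‖Φ fun i => ((1 - Real.exp (-((deg i : ℝ) * s))) / 2) ^ n‖ ≤ (3 / 4) ^ l := fun s hs => by
    have := analytic_pow hm hone (h2 _ (hx s hs)) l
    simp only [ee] at this
    convert this using 3
    funext i; simp only [Pi.pow_apply, hn, pow_mul]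
  have hb : ∀ t, 0 < t → t * ‖Φ fun i => (deg i : ℝ) * Real.exp (-((deg i : ℝ) * t))‖ ≤ C := by
    refine analytic_boot (H₀ := ‖Φ‖) (fun t ht => ?_)
      (analytic_step hm (fun i => (deg i : ℝ)) he hn1 hl hu)
    rw [← Real.norm_of_nonneg ht.le, ← norm_smul, ← map_smul, Real.norm_of_nonneg ht.le]
    refine (Φ.le_opNorm _).trans (mul_le_of_le_one_right (norm_nonneg _) ?_)
    refine (pi_norm_le_iff_of_nonneg zero_le_one).2 fun i => ?_
    simp only [Pi.smul_apply, smul_eq_mul]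
    rw [Real.norm_of_nonneg (by positivity), Real.exp_neg, ← mul_assoc, ← div_eq_mul_inv,
      div_le_one (Real.exp_pos _)]
    linarith [Real.add_one_le_exp ((deg i : ℝ) * t)]
  have hp : ∀ j : ℕ, ‖Φ fun i => ((deg i : ℝ) - 1) ^ j * Real.exp (-((deg i : ℝ) * a))‖ ≤
      (C * j / a + 1) ^ j := by
    intro j
    rcases Nat.eq_zero_or_pos j with rfl | hj
    · simpa using he a ha0.le
    · have hj' : (0 : ℝ) < j := by exact_mod_cast hj
      have h3 : ‖Φ fun i => ((deg i : ℝ) - 1) * Real.exp (-((deg i : ℝ) * (a / j)))‖ ≤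
          C * j / a + 1 := by
        have e : (fun i => ((deg i : ℝ) - 1) * Real.exp (-((deg i : ℝ) * (a / j)))) =
            (fun i => (deg i : ℝ) * Real.exp (-((deg i : ℝ) * (a / j)))) -
              fun i => Real.exp (-((deg i : ℝ) * (a / j))) := by
          funext i; simp only [Pi.sub_apply]; ring
        rw [e, map_sub]
        refine (norm_sub_le _ _).trans (add_le_add ?_ (he _ (by positivity)))
        have := hb (a / j) (by positivity)
        rw [le_div_iff₀ ha0]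
        rw [div_mul_eq_mul_div, div_le_iff₀ hj'] at this
        linarith
      convert analytic_pow hm hone h3 j using 3
      funext i
      simp only [Pi.pow_apply, mul_pow, ← Real.exp_nat_mul]
      congr 2; field_simp
  have hs : HasSum (fun m : ℕ => (Real.exp a * ((-1 : ℝ) ^ m * Real.pi ^ (2 * m) /
      (2 * m + 1).factorial)) • fun i => ((deg i : ℝ) - 1) ^ (2 * m) *
        Real.exp (-((deg i : ℝ) * a))) fun i => if deg i = 1 then 1 else 0 := by
    refine Pi.hasSum.2 fun i => ?_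
    refine analytic_congr ((analytic_sinc (deg i)).mul_left
      (Real.exp a * Real.exp (-((deg i : ℝ) * a)))) (fun m => ?_) ?_
    · simp only [Pi.smul_apply, smul_eq_mul, mul_pow]; ring
    · split_ifs with h
      · rw [h, ← Real.exp_add]; simp
      · simp
  refine (Φ.hasSum hs).norm_le_of_bounded
    ((hasSum_geometric_of_lt_one (r := (3 / 4 : ℝ)) (by norm_num) (by norm_num)).mul_left _)
    fun m => ?_
  rw [map_smul, norm_smul, norm_mul, Real.norm_of_nonneg (Real.exp_pos _).le, mul_assoc, mul_assoc]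
  refine mul_le_mul_of_nonneg_left ?_ (Real.exp_pos _).le
  have h4 := Real.pow_div_factorial_le_exp (x := 4 * Real.pi * (C * (2 * m : ℕ) / a + 1))
    (by positivity) (2 * m)
  have e1 : 4 * Real.pi * (C * (2 * m : ℕ) / a + 1) = 4 * Real.pi + (2 * m : ℕ) * 1 := by
    rw [ha]; field_simp; ring
  rw [e1, Real.exp_add, Real.exp_nat_mul, ← e1] at h4
  have h5 : Real.exp 1 ^ (2 * m) ≤ 3 ^ (2 * m) :=
    pow_le_pow_left₀ (Real.exp_pos _).le (Real.exp_one_lt_d9.le.trans (by norm_num)) _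
  have h6 : ((2 * m).factorial : ℝ) ≤ (2 * m + 1).factorial := by
    exact_mod_cast Nat.factorial_le (Nat.le_succ _)
  calc _ ≤ Real.pi ^ (2 * m) / (2 * m).factorial * (C * (2 * m : ℕ) / a + 1) ^ (2 * m) := by
        refine mul_le_mul ?_ (hp _) (norm_nonneg _) (by positivity)
        rw [norm_div, norm_mul, norm_pow, norm_neg, norm_one, one_pow, one_mul,
          Real.norm_of_nonneg (by positivity), Real.norm_of_nonneg (by positivity)]
        gcongr
    _ = (4 * Real.pi * (C * (2 * m : ℕ) / a + 1)) ^ (2 * m) / (2 * m).factorial / 4 ^ (2 * m) := by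
        rw [mul_pow, mul_pow]; field_simp
    _ ≤ Real.exp (4 * Real.pi) * 3 ^ (2 * m) / 4 ^ (2 * m) := by
        gcongr
        exact h4.trans (by gcongr)
    _ = Real.exp (4 * Real.pi) * (3 / 4) ^ (2 * m) := by rw [div_pow, mul_div_assoc]
    _ ≤ _ := mul_le_mul_of_nonneg_left
        (pow_le_pow_of_le_one (by norm_num) (by norm_num) (by omega)) (Real.exp_pos _).le

end Crest.Agent.R118
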