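import Mathlib

/-! Row 118: basic notation (`F₂`-cubes, signs, averages, Hadamard bounds). -/

set_option autoImplicit false

namespace Crest.Agent.R118

open Finset

/-- The cube `F₂^ι`. -/
abbrev V (ι : Type) := ι → ZMod 2

/-- The sign character of `F₂`. -/
def e (x : ZMod 2) : ℝ := if x = 0 then 1 else -1

@[simp] lemma e_zero : e 0 = 1 := by simp [e]
@[simp] lemma e_one : e 1 = -1 := by simp [e]

lemma zmod2_cases (x : ZMod 2) : x = 0 ∨ x = 1 := by
  revert x; decide

lemma e_add (x y : ZMod 2) : e (x + y) = e x * e y := by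
  rcases zmod2_cases x with rfl | rfl <;> rcases zmod2_cases y with rfl | rfl
  · simp
  · simp
  · simp
  · have : (1 + 1 : ZMod 2) = 0 := by decide
    rw [this]; simp

lemma e_mul_self (x : ZMod 2) : e x * e x = 1 := by
  rcases zmod2_cases x with rfl | rfl <;> simp

lemma e_sq (x : ZMod 2) : e x ^ 2 = 1 := by rw [sq, e_mul_self]

lemma abs_e (x : ZMod 2) : |e x| = 1 := by
  rcases zmod2_cases x with rfl | rfl <;> simp

lemma e_cases (x : ZMod 2) : e x = 1 ∨ e x = -1 := by
  rcases zmod2_cases x with rfl | rfl <;> simp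

lemma add_self2 (x : ZMod 2) : x + x = 0 := by revert x; decide

lemma V.add_self {ι : Type} (x : V ι) : x + x = 0 := by
  funext i; exact add_self2 _

lemma e_sum {α : Type*} (s : Finset α) (f : α → ZMod 2) : e (∑ i ∈ s, f i) = ∏ i ∈ s, e (f i) := by
  classical
  induction s using Finset.induction_on with
  | empty => simp
  | insert a s ha ih => rw [sum_insert ha, prod_insert ha, e_add, ih]

lemma sum_zmod2 {E : Type*} [AddCommMonoid E] (f : ZMod 2 → E) : ∑ x, f x = f 0 + f 1 := by
  have : (Finset.univ : Finset (ZMod 2)) = {0, 1} := by decide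
  rw [this, sum_pair (by decide)]

/-- Uniform average over a finite type. -/
noncomputable def avg {α : Type*} [Fintype α] {E : Type*} [AddCommGroup E] [Module ℝ E]
    (f : α → E) : E :=
  (Fintype.card α : ℝ)⁻¹ • ∑ a, f a

section avg
variable {α β : Type*} [Fintype α] [Fintype β] {E : Type*} [AddCommGroup E] [Module ℝ E]

lemma avg_add (f g : α → E) : avg (fun a => f a + g a) = avg f + avg g := by
  simp [avg, sum_add_distrib]

lemma avg_neg (f : α → E) : avg (fun a => -f a) = -avg f := by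
  simp [avg]

lemma avg_sub (f g : α → E) : avg (fun a => f a - g a) = avg f - avg g := by
  simp [avg, sum_sub_distrib, smul_sub]

lemma avg_smul (c : ℝ) (f : α → E) : avg (fun a => c • f a) = c • avg f := by
  simp only [avg, ← smul_sum]; rw [smul_comm]

lemma avg_mul_left (c : ℝ) (f : α → ℝ) : avg (fun a => c * f a) = c * avg f :=
  avg_smul c f

lemma avg_mul_right (c : ℝ) (f : α → ℝ) : avg (fun a => f a * c) = avg f * c := by
  simp only [mul_comm _ c]; exact avg_mul_left c f

lemma avg_div (c : ℝ) (f : α → ℝ) : avg (fun a => f a / c) = avg f / c := by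
  simp only [div_eq_mul_inv]; exact avg_mul_right _ f

@[simp] lemma avg_const [Nonempty α] (c : E) : avg (fun _ : α => c) = c := by
  have : (Fintype.card α : ℝ) ≠ 0 := by exact_mod_cast Fintype.card_ne_zero
  simp only [avg, sum_const, card_univ]
  rw [← Nat.cast_smul_eq_nsmul ℝ, smul_smul, inv_mul_cancel₀ this, one_smul]

@[simp] lemma avg_zero : avg (fun _ : α => (0 : E)) = 0 := by simp [avg]

lemma avg_sum {γ : Type*} (s : Finset γ) (f : γ → α → E) :
    avg (fun a => ∑ i ∈ s, f i a) = ∑ i ∈ s, avg (f i) := by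
  simp only [avg, smul_sum]; rw [sum_comm]

lemma avg_comm (f : α → β → E) :
    avg (fun a => avg fun b => f a b) = avg fun b => avg fun a => f a b := by
  simp only [avg, smul_sum, smul_smul]
  rw [sum_comm]
  simp only [mul_comm]

lemma avg_prod (f : α × β → E) : avg f = avg fun a => avg fun b => f (a, b) := by
  simp only [avg, smul_sum, smul_smul, Fintype.card_prod, Fintype.sum_prod_type, Nat.cast_mul,
    mul_inv]

lemma avg_equiv (σ : α ≃ β) (f : β → E) : avg (fun a => f (σ a)) = avg f := by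
  simp only [avg, Fintype.card_congr σ]
  rw [Equiv.sum_comp σ f]

lemma avg_shift {A : Type*} [Fintype A] [AddGroup A] (f : A → E) (c : A) :
    avg (fun a => f (a + c)) = avg f :=
  avg_equiv (Equiv.addRight c) f

lemma avg_shift' {A : Type*} [Fintype A] [AddGroup A] (f : A → E) (c : A) :
    avg (fun a => f (c + a)) = avg f :=
  avg_equiv (Equiv.addLeft c) f

lemma map_avg {E' : Type*} [AddCommGroup E'] [Module ℝ E'] (φ : E →ₗ[ℝ] E') (f : α → E) :
    φ (avg f) = avg fun a => φ (f a) := by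
  simp [avg, map_sum]

lemma avg_apply {W : Type*} [AddCommGroup W] [Module ℝ W] (f : α → W →ₗ[ℝ] E) (w : W) :
    (avg f) w = avg fun a => f a w := by
  simp [avg, LinearMap.sum_apply]

lemma avg_mono {f g : α → ℝ} (h : ∀ a, f a ≤ g a) : avg f ≤ avg g := by
  simp only [avg, smul_eq_mul]
  exact mul_le_mul_of_nonneg_left (sum_le_sum fun a _ => h a) (by positivity)

lemma avg_nonneg {f : α → ℝ} (h : ∀ a, 0 ≤ f a) : 0 ≤ avg f := by
  simpa using avg_mono (f := fun _ => (0 : ℝ)) h

lemma avg_le_of_le [Nonempty α] {f : α → ℝ} {c : ℝ} (h : ∀ a, f a ≤ c) : avg f ≤ c := by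
  simpa using avg_mono (g := fun _ => c) h

lemma norm_avg_le {W : Type*} [NormedAddCommGroup W] [NormedSpace ℝ W] (f : α → W) :
    ‖avg f‖ ≤ avg fun a => ‖f a‖ := by
  simp only [avg, norm_smul, smul_eq_mul, norm_inv, Real.norm_natCast]
  exact mul_le_mul_of_nonneg_left (norm_sum_le _ _) (by positivity)

lemma abs_avg_le (f : α → ℝ) : |avg f| ≤ avg fun a => |f a| := norm_avg_le f

/-- Cauchy–Schwarz for averages. -/
lemma avg_mul_sq_le (f g : α → ℝ) :
    (avg fun a => f a * g a) ^ 2 ≤ (avg fun a => f a ^ 2) * avg fun a => g a ^ 2 := by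
  simp only [avg, smul_eq_mul]
  have := sum_mul_sq_le_sq_mul_sq univ f g
  have h0 : (0 : ℝ) ≤ (Fintype.card α : ℝ)⁻¹ := by positivity
  calc _ = (Fintype.card α : ℝ)⁻¹ ^ 2 * (∑ a, f a * g a) ^ 2 := by ring
    _ ≤ (Fintype.card α : ℝ)⁻¹ ^ 2 * ((∑ a, f a ^ 2) * ∑ a, g a ^ 2) := by gcongr
    _ = _ := by ring

/-- Weighted Jensen: if `|ω| ≤ p` and `avg p ≤ 1`, then `‖avg ω • y‖² ≤ avg p ‖y‖²`. -/
lemma norm_avg_smul_sq_le {W : Type*} [NormedAddCommGroup W] [NormedSpace ℝ W]
    (ω p : α → ℝ) (y : α → W) (h : ∀ a, |ω a| ≤ p a) (hp : avg p ≤ 1) :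
    ‖avg fun a => ω a • y a‖ ^ 2 ≤ avg fun a => p a * ‖y a‖ ^ 2 := by
  have hp0 : ∀ a, 0 ≤ p a := fun a => (abs_nonneg _).trans (h a)
  have h1 : ‖avg fun a => ω a • y a‖ ≤ avg fun a => √(p a) * (√(p a) * ‖y a‖) := by
    refine (norm_avg_le _).trans (avg_mono fun a => ?_)
    rw [norm_smul, ← mul_assoc, Real.mul_self_sqrt (hp0 a)]
    exact mul_le_mul_of_nonneg_right (h a) (norm_nonneg _)
  have h2 := avg_mul_sq_le (fun a => √(p a)) (fun a => √(p a) * ‖y a‖)
  simp only [mul_pow, Real.sq_sqrt (hp0 _)] at h2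
  have h3 : 0 ≤ avg fun a => p a * ‖y a‖ ^ 2 :=
    avg_nonneg fun a => mul_nonneg (hp0 a) (sq_nonneg _)
  calc _ ≤ (avg fun a => √(p a) * (√(p a) * ‖y a‖)) ^ 2 := by gcongr
    _ ≤ avg p * avg fun a => p a * ‖y a‖ ^ 2 := h2
    _ ≤ 1 * avg fun a => p a * ‖y a‖ ^ 2 := by gcongr
    _ = _ := one_mul _

/-- A surjective additive statistic of a uniform variable is uniform. -/
lemma avg_comp_of_section {A U : Type*} [Fintype A] [Fintype U] [AddGroup A] [AddGroup U]
    (π : A → U) (l : U → A) (h : ∀ a u, π (a + l u) = π a + u) (f : U → E) :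
    avg (fun a => f (π a)) = avg f := by
  have h1 : ∀ u, avg (fun a => f (π a)) = avg fun a => f (π a + u) := fun u => by
    rw [← avg_shift (fun a => f (π a)) (l u)]; simp only [h]
  calc avg (fun a => f (π a)) = avg fun u : U => avg fun a => f (π a + u) := by
        simp only [← h1, avg_const]
    _ = avg fun a => avg fun u : U => f (π a + u) := avg_comm _
    _ = avg f := by simp only [avg_shift', avg_const]

end avg

section cube
variable {ι : Type} [Fintype ι] [DecidableEq ι]

lemma avg_e_dot (a : V ι) : avg (fun b : V ι => e (a ⬝ᵥ b)) = if a = 0 then 1 else 0 := by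
  split_ifs with h
  · simp [h]
  · obtain ⟨i, hi⟩ := Function.ne_iff.mp h
    have hi1 : a i = 1 := (zmod2_cases (a i)).resolve_left hi
    have h1 := avg_shift (fun b : V ι => e (a ⬝ᵥ b)) (Pi.single i 1)
    simp only [dotProduct_add, dotProduct_single, hi1, mul_one, e_add, e_one, mul_neg,
      avg_neg] at h1
    linarith

omit [Fintype ι] [DecidableEq ι] in
lemma V.add_eq_zero_iff (a b : V ι) : a + b = 0 ↔ a = b := by
  constructor
  · intro h
    have : a + b + b = b := by rw [h, zero_add]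
    rwa [add_assoc, V.add_self, add_zero] at this
  · rintro rfl; exact V.add_self a

lemma card_V : (Fintype.card (V ι) : ℝ) = 2 ^ Fintype.card ι := by
  simp [V, Fintype.card_pi]

/-- Parseval bound for the scalar Hadamard pairing. -/
lemma hadamard_scalar (f g : V ι → ℝ) :
    (avg fun a => avg fun b => e (a ⬝ᵥ b) * f a * g b) ^ 2 ≤
      (2 ^ Fintype.card ι : ℝ)⁻¹ * (avg fun a => f a ^ 2) * avg fun b => g b ^ 2 := by
  have h1 : (avg fun a => avg fun b => e (a ⬝ᵥ b) * f a * g b) =
      avg fun b => (avg fun a => e (a ⬝ᵥ b) * f a) * g b := by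
    rw [avg_comm]; simp only [avg_mul_right]
  have h2 : (avg fun b : V ι => (avg fun a => e (a ⬝ᵥ b) * f a) ^ 2) =
      (2 ^ Fintype.card ι : ℝ)⁻¹ * avg fun a => f a ^ 2 := by
    have : ∀ b : V ι, (avg fun a => e (a ⬝ᵥ b) * f a) ^ 2 =
        avg fun a => avg fun a' => f a * f a' * e ((a + a') ⬝ᵥ b) := fun b => by
      rw [sq, ← avg_mul_right]
      congr 1; funext a
      rw [← avg_mul_left]
      congr 1; funext a'
      rw [add_dotProduct, e_add]; ring
    simp only [this]
    rw [avg_comm, ← avg_mul_left]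
    congr 1; funext a
    rw [avg_comm]
    simp only [avg_mul_left, avg_e_dot, V.add_eq_zero_iff]
    simp [avg, sq]
  rw [h1, ← h2]
  exact avg_mul_sq_le _ _

end cube

section HB
variable {W : Type*} [NormedAddCommGroup W] [NormedSpace ℝ W]

/-- Hadamard bound: admissible families of functionals pair with vectors at most `L`. -/
def HB (Adm : (W →ₗ[ℝ] ℝ) → ℝ → Prop) (ι : Type) [Fintype ι] [DecidableEq ι] (L : ℝ) : Prop :=
  ∀ (l : V ι → W →ₗ[ℝ] ℝ) (s : V ι → ℝ) (y : V ι → W), (∀ a, Adm (l a) (s a)) →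
    (avg fun a => avg fun b => e (a ⬝ᵥ b) * l a (y b)) ≤
      L * (avg s + avg fun b => ‖y b‖ ^ 2) / 2

variable {Adm : (W →ₗ[ℝ] ℝ) → ℝ → Prop}

lemma HB.scaled {ι : Type} [Fintype ι] [DecidableEq ι] {L : ℝ} (h : HB Adm ι L)
    {lam : ℝ} (hlam : 0 < lam)
    (l : V ι → W →ₗ[ℝ] ℝ) (s : V ι → ℝ) (y : V ι → W) (hl : ∀ a, Adm (l a) (s a)) :
    (avg fun a => avg fun b => e (a ⬝ᵥ b) * l a (y b)) ≤
      L * (lam * avg s + lam⁻¹ * avg fun b => ‖y b‖ ^ 2) / 2 := by
  have h1 := h l s (fun b => lam⁻¹ • y b) hl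
  have e1 : (avg fun a => avg fun b => e (a ⬝ᵥ b) * l a (lam⁻¹ • y b)) =
      lam⁻¹ * avg fun a => avg fun b => e (a ⬝ᵥ b) * l a (y b) := by
    simp only [← avg_mul_left, map_smul, smul_eq_mul]
    congr 1; funext a; congr 1; funext b; ring
  have e2 : (avg fun b => ‖lam⁻¹ • y b‖ ^ 2) = lam⁻¹ ^ 2 * avg fun b => ‖y b‖ ^ 2 := by
    simp only [← avg_mul_left, norm_smul, mul_pow, Real.norm_eq_abs, sq_abs]
  rw [e1, e2] at h1
  have h2 := mul_le_mul_of_nonneg_left h1 hlam.le
  rw [← mul_assoc, mul_inv_cancel₀ hlam.ne', one_mul] at h2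
  refine h2.trans (le_of_eq ?_)
  field_simp

lemma HB.equiv {ι κ : Type} [Fintype ι] [DecidableEq ι] [Fintype κ] [DecidableEq κ] {L : ℝ}
    (h : HB Adm ι L) (σ : ι ≃ κ) : HB Adm κ L := by
  intro l s y hl
  let τ : V ι ≃ V κ := Equiv.arrowCongr σ (Equiv.refl _)
  have hdot : ∀ a b : V ι, τ a ⬝ᵥ τ b = a ⬝ᵥ b := fun a b => by
    simp only [dotProduct, τ, Equiv.arrowCongr_apply, Equiv.coe_refl, Function.comp, id]
    exact Equiv.sum_comp σ.symm fun i => a i * b i
  have := h (fun a => l (τ a)) (fun a => s (τ a)) (fun b => y (τ b)) fun a => hl _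
  rw [avg_equiv τ s, avg_equiv τ fun b => ‖y b‖ ^ 2] at this
  refine le_trans (le_of_eq ?_) this
  rw [← avg_equiv τ]
  congr 1; funext a
  rw [← avg_equiv τ]
  simp only [hdot]

/-- Conditioning lemma: reparametrise both sides by shifts and apply the Hadamard bound to the
free variables. -/
lemma HB.cond {ι : Type} [Fintype ι] [DecidableEq ι] {L : ℝ} (h : HB Adm ι L)
    {lam : ℝ} (hlam : 0 < lam)
    {A B : Type*} [Fintype A] [Fintype B] [AddGroup A] [AddGroup B]
    (Φ : A → B → ℝ) (iA : B → V ι → A) (iB : V ι → B)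
    (l : A → B → V ι → W →ₗ[ℝ] ℝ) (s : A → B → V ι → ℝ) (y : A → B → V ι → W)
    (hl : ∀ a b α, Adm (l a b α) (s a b α))
    (hΦ : ∀ a b α d, Φ (a + iA b α) (b + iB d) = e (α ⬝ᵥ d) * l a b α (y a b d)) :
    (avg fun a => avg fun b => Φ a b) ≤
      L * (lam * (avg fun a => avg fun b => avg fun α => s a b α) +
        lam⁻¹ * avg fun a => avg fun b => avg fun d => ‖y a b d‖ ^ 2) / 2 := by
  have e1 : (avg fun a => avg fun b => Φ a b) =
      avg fun a => avg fun b => avg fun α => avg fun d =>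
        e (α ⬝ᵥ d) * l a b α (y a b d) := by
    simp only [← hΦ]
    symm
    calc (avg fun a => avg fun b => avg fun α => avg fun d => Φ (a + iA b α) (b + iB d))
        = avg fun b => avg fun α : V ι => avg fun d => avg fun a => Φ (a + iA b α) (b + iB d) := by
          rw [avg_comm]; congr 1; funext b
          rw [avg_comm]; congr 1; funext α
          rw [avg_comm]
      _ = avg fun b => avg fun d => avg fun a => Φ a (b + iB d) := by
          congr 1; funext b
          have : ∀ α d, (avg fun a => Φ (a + iA b α) (b + iB d)) = avg fun a => Φ a (b + iB d) :=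
            fun α d => avg_shift (fun a => Φ a (b + iB d)) _
          simp only [this, avg_const]
      _ = avg fun d : V ι => avg fun b => avg fun a => Φ a (b + iB d) := avg_comm _
      _ = avg fun b => avg fun a => Φ a b := by
          have : ∀ d, (avg fun b => avg fun a => Φ a (b + iB d)) = avg fun b => avg fun a => Φ a b :=
            fun d => avg_shift (fun b => avg fun a => Φ a b) _
          simp only [this, avg_const]
      _ = _ := avg_comm _
  rw [e1]
  calc _ ≤ avg fun a => avg fun b =>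
        L * (lam * (avg fun α => s a b α) + lam⁻¹ * avg fun d => ‖y a b d‖ ^ 2) / 2 :=
        avg_mono fun a => avg_mono fun b => h.scaled hlam _ _ _ (hl a b)
    _ = _ := by simp only [avg_div, avg_mul_left, avg_add]

end HB

end Crest.Agent.R118
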