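import Mathlib

/-! Row 118: a Marchaud-type recursion for finite differences at dyadic scales. -/

set_option autoImplicit false

namespace Crest.Agent.R118

open Finset

lemma fwdDiff_double (h : ℝ) (r : ℕ) (p : ℝ → ℝ) (y : ℝ) :
    (fwdDiff (2 * h))^[r] p y =
      ∑ j ∈ range (r + 1), (r.choose j : ℝ) * 2 ^ (r - j) * (fwdDiff h)^[r + j] p y := by
  set D := fwdDiff_aux.fwdDiffₗ ℝ ℝ h with hD
  have h1 : fwdDiff_aux.fwdDiffₗ ℝ ℝ (2 * h) = D * (D + 2) := by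
    ext f x
    simp only [hD, fwdDiff_aux.coe_fwdDiffₗ, Module.End.mul_apply, LinearMap.add_apply,
      Module.End.ofNat_apply, fwdDiff, Pi.add_apply, two_nsmul]
    rw [show x + h + h = x + 2 * h by ring]
    ring
  have hc : Commute D (2 : Module.End ℤ (ℝ → ℝ)) := (Nat.cast_commute 2 D).symm
  have h2 : Commute D (D + 2) := (Commute.refl D).add_right hc
  rw [← fwdDiff_aux.coe_fwdDiffₗ_pow, h1, h2.mul_pow, hc.add_pow, mul_sum, LinearMap.sum_apply,
    Finset.sum_apply]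
  refine sum_congr rfl fun j _ => ?_
  have e : D ^ r * (D ^ j * 2 ^ (r - j) * (r.choose j : Module.End ℤ (ℝ → ℝ))) =
      ((r.choose j * 2 ^ (r - j) : ℕ) : Module.End ℤ (ℝ → ℝ)) * D ^ (r + j) := by
    rw [(Nat.cast_commute _ _).eq, pow_add, mul_comm (r.choose j)]
    push_cast
    simp only [mul_assoc]
  rw [e, Module.End.mul_apply, Module.End.natCast_apply, hD, fwdDiff_aux.coe_fwdDiffₗ_pow]
  simp

lemma fwdDiff_step (h : ℝ) (r : ℕ) (p : ℝ → ℝ) (M : ℝ) (hM : 0 ≤ M)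
    (hj : ∀ j, 1 ≤ j → j ≤ r → |(fwdDiff h)^[r + j] p 0| ≤ M) :
    2 ^ r * |(fwdDiff h)^[r] p 0| ≤ |(fwdDiff (2 * h))^[r] p 0| + 3 ^ r * M := by
  have h1 := fwdDiff_double h r p 0
  rw [sum_range_succ'] at h1
  simp only [Nat.choose_zero_right, Nat.cast_one, one_mul, tsub_zero, add_zero] at h1
  have h2 : |∑ j ∈ range r, (r.choose (j + 1) : ℝ) * 2 ^ (r - (j + 1)) *
      (fwdDiff h)^[r + (j + 1)] p 0| ≤ 3 ^ r * M := by
    have h3 : (3 : ℝ) ^ r = ∑ j ∈ range (r + 1), (r.choose j : ℝ) * 2 ^ (r - j) := by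
      rw [show (3 : ℝ) = 1 + 2 by norm_num, add_pow]
      exact sum_congr rfl fun j _ => by ring
    refine (abs_sum_le_sum_abs _ _).trans ?_
    rw [h3, sum_range_succ', add_mul, sum_mul]
    refine le_add_of_le_of_nonneg (sum_le_sum fun j hj' => ?_) (by positivity)
    rw [abs_mul, abs_of_nonneg (by positivity)]
    exact mul_le_mul_of_nonneg_left (hj _ (by omega) (by have := mem_range.1 hj'; omega))
      (by positivity)
  have h4 : (2 : ℝ) ^ r * (fwdDiff h)^[r] p 0 = (fwdDiff (2 * h))^[r] p 0 -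
      ∑ j ∈ range r, (r.choose (j + 1) : ℝ) * 2 ^ (r - (j + 1)) *
        (fwdDiff h)^[r + (j + 1)] p 0 := by linarith
  calc (2 : ℝ) ^ r * |(fwdDiff h)^[r] p 0| = |2 ^ r * (fwdDiff h)^[r] p 0| := by
        rw [abs_mul, abs_of_nonneg (by positivity : (0 : ℝ) ≤ 2 ^ r)]
    _ ≤ _ := by rw [h4]; exact (abs_sub _ _).trans (by linarith)

lemma fwdDiff_base (p : ℝ → ℝ) (H : ℝ) (hH : 0 < H) (L r : ℕ) (hr : r ≤ L)
    (hp : ∀ y, 0 ≤ y → y ≤ L * H → |p y| ≤ 1) : |(fwdDiff H)^[r] p 0| ≤ 2 ^ r := by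
  rw [fwdDiff_iter_eq_sum_shift]
  refine (abs_sum_le_sum_abs _ _).trans ?_
  have h3 : (2 : ℝ) ^ r = ∑ j ∈ range (r + 1), (r.choose j : ℝ) := by
    exact_mod_cast (Nat.sum_range_choose r).symm
  rw [h3]
  refine sum_le_sum fun k hk => ?_
  have hk' : (k : ℝ) ≤ L := by exact_mod_cast (by have := mem_range.1 hk; omega : k ≤ L)
  have := hp (0 + k • H) (by simp; positivity) (by simp; gcongr)
  rw [zsmul_eq_mul, abs_mul]
  push_cast
  rw [abs_mul, abs_pow, abs_neg, abs_one, one_pow, one_mul, Nat.abs_cast]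
  exact mul_le_of_le_one_right (by positivity) this

lemma diff_orders (L : ℕ) (k : ℕ) (hk : k + 2 ≤ L) : ∃ B : ℝ, 1 ≤ B ∧
    ∀ (p : ℝ → ℝ) (H η : ℝ) (I : ℕ), 0 < H → 0 ≤ η →
      (∀ y, 0 ≤ y → y ≤ L * H → |p y| ≤ 1) →
      (∀ r i : ℕ, L ≤ r → r ≤ 2 * L → i ≤ I → |(fwdDiff (H / 2 ^ i))^[r] p 0| ≤ η) →
      ∀ r i : ℕ, L - k ≤ r → r ≤ 2 * L → i ≤ I →
        |(fwdDiff (H / 2 ^ i))^[r] p 0| ≤ B * (η + 1 / 3 ^ i) := by
  induction k with
  | zero =>
    refine ⟨1, le_rfl, fun p H η I _ _ _ h r i h1 h2 h3 => (h r i h1 h2 h3).trans ?_⟩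
    rw [one_mul]
    exact le_add_of_nonneg_right (by positivity)
  | succ k ih =>
    obtain ⟨B, hB, ih⟩ := ih (by omega)
    have h31 : (1 : ℝ) ≤ 3 ^ L := one_le_pow₀ (by norm_num)
    refine ⟨4 * 3 ^ L * B, by nlinarith, fun p H η I hH hη hp h r i h1 h2 h3 => ?_⟩
    have ih' := ih p H η I hH hη hp h
    by_cases hr : L - k ≤ r
    · refine (ih' r i hr h2 h3).trans (mul_le_mul_of_nonneg_right (by nlinarith) (by positivity))
    have h3r : (3 : ℝ) ^ r ≤ 3 ^ L := pow_le_pow_right₀ (by norm_num) (by omega)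
    induction i with
    | zero =>
      simp only [pow_zero, div_one]
      refine (fwdDiff_base p H hH L r (by omega) hp).trans ?_
      have : (2 : ℝ) ^ r ≤ 3 ^ r := pow_le_pow_left₀ (by norm_num) (by norm_num) r
      have h5 : (3 : ℝ) ^ L ≤ 4 * 3 ^ L * B := by nlinarith
      nlinarith
    | succ i ihi =>
      have a1 := ihi (by omega)
      have a2 := fwdDiff_step (H / 2 ^ (i + 1)) r p (B * (η + 1 / 3 ^ (i + 1))) (by positivity)
        fun j hj1 hj2 => ih' _ _ (by omega) (by omega) h3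
      rw [show 2 * (H / 2 ^ (i + 1)) = H / 2 ^ i by rw [pow_succ]; field_simp] at a2
      have a3 : (4 : ℝ) ≤ 2 ^ r := by
        calc (4 : ℝ) = 2 ^ 2 := by norm_num
          _ ≤ 2 ^ r := pow_le_pow_right₀ (by norm_num) (by omega)
      have a4 : (1 : ℝ) / 3 ^ i = 3 * (1 / 3 ^ (i + 1)) := by rw [pow_succ]; field_simp
      rw [a4] at a1
      set t : ℝ := 1 / 3 ^ (i + 1) with ht
      have ht0 : 0 ≤ t := by positivity
      have a5 : 4 * |(fwdDiff (H / 2 ^ (i + 1)))^[r] p 0| ≤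
          2 ^ r * |(fwdDiff (H / 2 ^ (i + 1)))^[r] p 0| :=
        mul_le_mul_of_nonneg_right a3 (abs_nonneg _)
      have a6 : (3 : ℝ) ^ r * (B * (η + t)) ≤ 3 ^ L * (B * (η + t)) :=
        mul_le_mul_of_nonneg_right h3r (by positivity)
      have a7 : 0 ≤ (3 : ℝ) ^ L * B * η := by positivity
      have a8 : 0 ≤ (3 : ℝ) ^ L * B * t := by positivity
      nlinarith

theorem diff_lemma (L : ℕ) (hL : 2 ≤ L) : ∃ B : ℝ, 0 < B ∧
    ∀ (p : ℝ → ℝ) (H η : ℝ) (I : ℕ), 0 < H → 0 ≤ η → p 0 = 0 →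
      (∀ y, 0 ≤ y → y ≤ L * H → |p y| ≤ 1) →
      (∀ r i : ℕ, L ≤ r → r ≤ 2 * L → i ≤ I → |(fwdDiff (H / 2 ^ i))^[r] p 0| ≤ η) →
      |p (H / 2 ^ I)| ≤ B * (η + 1 / 2 ^ I) := by
  obtain ⟨B, hB, hD⟩ := diff_orders L (L - 2) (by omega)
  refine ⟨1 + B, by linarith, fun p H η I hH hη h0 hp h => ?_⟩
  have hD' := hD p H η I hH hη hp h
  have key : ∀ i, i ≤ I → |p (H / 2 ^ i)| ≤ B * η + (1 + B) * (1 / 2 ^ i) - B * (1 / 3 ^ i) := by
    intro i hi
    induction i with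
    | zero =>
      have hL' : (1 : ℝ) ≤ L := by exact_mod_cast (by omega : 1 ≤ L)
      have := hp H hH.le (by nlinarith)
      simp only [pow_zero, div_one]
      nlinarith
    | succ i ih =>
      have a1 := ih (by omega)
      have a2 := hD' 2 (i + 1) (by omega) (by omega) hi
      have a3 : (fwdDiff (H / 2 ^ (i + 1)))^[2] p 0 = p (H / 2 ^ i) - 2 * p (H / 2 ^ (i + 1)) := by
        simp only [Function.iterate_succ, Function.iterate_zero, Function.comp, id, fwdDiff,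
          zero_add, h0]
        rw [show H / 2 ^ (i + 1) + H / 2 ^ (i + 1) = H / 2 ^ i by rw [pow_succ]; field_simp; ring]
        ring
      rw [a3] at a2
      have a4 : (1 : ℝ) / 3 ^ i = 3 * (1 / 3 ^ (i + 1)) := by rw [pow_succ]; field_simp
      have a5 : (1 : ℝ) / 2 ^ i = 2 * (1 / 2 ^ (i + 1)) := by rw [pow_succ]; field_simp
      rw [a4, a5] at a1
      have a6 := abs_le.1 a1
      have a7 := abs_le.1 a2
      rw [abs_le]
      constructor <;> nlinarith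
  have h1 := key I le_rfl
  have h2 : (0 : ℝ) ≤ B * (1 / 3 ^ I) := by positivity
  nlinarith

end Crest.Agent.R118
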