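import Crest.Agent.R118.Basic

/-! Row 118: stage B (odd Riesz product test). -/

set_option autoImplicit false
set_option linter.unusedSectionVars false

namespace Crest.Agent.R118

open Finset

namespace StageB

lemma avg_prod_one_add {A κ : Type*} [Fintype A] [AddGroup A] [DecidableEq κ] (f : κ → A → ℝ)
    (c : κ → A) (h1 : ∀ j a, f j (a + c j) = -f j a)
    (h2 : ∀ i j a, i ≠ j → f i (a + c j) = f i a) (s : Finset κ) :
    (avg fun a => ∏ j ∈ s, (1 + f j a)) = 1 := by
  induction s using Finset.induction_on with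
  | empty => simp
  | insert j s hj ih =>
    simp only [prod_insert hj, add_mul, one_mul, avg_add, ih]
    have h := avg_shift (fun a => f j a * ∏ i ∈ s, (1 + f i a)) (c j)
    have e1 : ∀ a, ∏ i ∈ s, (1 + f i (a + c j)) = ∏ i ∈ s, (1 + f i a) := fun a =>
      prod_congr rfl fun i hi => by rw [h2 i j a (ne_of_mem_of_not_mem hi hj)]
    simp only [h1, e1, neg_mul, avg_neg] at h
    linarith

variable {W : Type*} [NormedAddCommGroup W] [NormedSpace ℝ W]
  {Adm : (W →ₗ[ℝ] ℝ) → ℝ → Prop}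

lemma adm_smul (hneg : ∀ l s, Adm l s → Adm (-l) s) {l : W →ₗ[ℝ] ℝ} {s : ℝ} (h : Adm l s)
    {ε : ℝ} (hε : ε = 1 ∨ ε = -1) : Adm (ε • l) s := by
  rcases hε with rfl | rfl
  · rwa [one_smul]
  · have : (-1 : ℝ) • l = -l := by
      ext w
      simp
    rw [this]
    exact hneg _ _ h

lemma avg_shift3 {A B C : Type*} [Fintype A] [Fintype B] [Fintype C] [AddGroup A] [Nonempty B]
    [Nonempty C] (S : A → ℝ) (i : B → C → A) :
    (avg fun a => avg fun b => avg fun c => S (a + i b c)) = avg S := by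
  rw [avg_comm]
  have : ∀ b, (avg fun a => avg fun c => S (a + i b c)) = avg S := fun b => by
    rw [avg_comm]
    simp only [avg_shift S, avg_const]
  simp only [this, avg_const]

lemma avg_shift2 {B C : Type*} [Fintype B] [Fintype C] [AddGroup B] [Nonempty C]
    (S : B → ℝ) (i : C → B) : (avg fun b => avg fun c => S (b + i c)) = avg S := by
  rw [avg_comm]
  simp only [avg_shift S, avg_const]

lemma phase (hneg : ∀ l s, Adm l s → Adm (-l) s) {ι : Type} [Fintype ι] [DecidableEq ι] {L : ℝ}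
    (h : HB Adm ι L) {lam : ℝ} (hlam : 0 < lam) {A B : Type*} [Fintype A] [Fintype B]
    [AddGroup A] [AddGroup B] (β : A → B → ZMod 2) (θ : A → ZMod 2)
    (hβ1 : ∀ a a' b, β (a + a') b = β a b + β a' b) (hβ2 : ∀ a b b', β a (b + b') = β a b + β a b')
    (iA : V ι → A) (iB : V ι → B) (hi : ∀ α d, β (iA α) (iB d) = α ⬝ᵥ d)
    (X : A → W →ₗ[ℝ] ℝ) (S : A → ℝ) (hX : ∀ a, Adm (X a) (S a)) (Y : B → W) :
    |avg fun a => avg fun b => e (β a b + θ a) * X a (Y b)| ≤
      L * (lam * avg S + lam⁻¹ * avg fun b => ‖Y b‖ ^ 2) / 2 := by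
  have key : ∀ ε : ℝ, ε = 1 ∨ ε = -1 →
      ε * (avg fun a => avg fun b => e (β a b + θ a) * X a (Y b)) ≤
        L * (lam * avg S + lam⁻¹ * avg fun b => ‖Y b‖ ^ 2) / 2 := by
    intro ε hε
    have := h.cond hlam (fun a b => ε * (e (β a b + θ a) * X a (Y b))) (fun _ α => iA α) iB
      (fun a b α => ε • e (β (iA α) b + θ (a + iA α)) • X (a + iA α)) (fun a _ α => S (a + iA α))
      (fun a b d => e (β a (b + iB d)) • Y (b + iB d))
      (fun a b α => adm_smul hneg (adm_smul hneg (hX _) (e_cases _)) hε)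
      (fun a b α d => by
        rw [hβ1, hβ2 (iA α), hi]
        simp only [e_add, LinearMap.smul_apply, map_smul, smul_eq_mul]
        ring)
    simp only [avg_mul_left, norm_smul, Real.norm_eq_abs, abs_e, one_mul] at this
    rw [avg_shift3 S fun (_ : B) α => iA α, avg_shift2 (fun b => ‖Y b‖ ^ 2) iB, avg_const] at this
    exact this
  rw [abs_le]
  have h1 := key 1 (Or.inl rfl)
  have h2 := key (-1) (Or.inr rfl)
  constructor <;> linarith

section defs

variable {M K' T : Type} [Fintype M] [DecidableEq M] [Fintype K'] [DecidableEq K']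
  [Fintype T] [DecidableEq T]

/-- The argument of the test function. -/
def u (a : (T → V M) × (T → V K')) (d : K' → V M) (j : K') : V T :=
  fun t => a.1 t ⬝ᵥ d j + a.2 t j

/-- The test function. -/
noncomputable def sg (sh : V T → ℝ) (v : V T) : ℝ := ∑ τ, sh τ * e (τ ⬝ᵥ v)

lemma sg_add_single {t0 : T} {sh : V T → ℝ} (hodd : ∀ τ, sh τ ≠ 0 → τ t0 = 1) (v : V T)
    (z : ZMod 2) : sg sh (v + Pi.single t0 z) = e z * sg sh v := by
  rw [sg, sg, mul_sum]
  refine sum_congr rfl fun τ _ => ?_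
  by_cases h : sh τ = 0
  · simp [h]
  · rw [dotProduct_add, dotProduct_single, hodd τ h, one_mul, e_add]
    ring

/-- Fourier coefficients of `y`. -/
noncomputable def yh (y : (K' → V M) → V K' → W) (J : Finset K') (d : K' → V M) : W :=
  avg fun w : V K' => (∏ j ∈ J, e (w j)) • y d w

lemma norm_yh (y : (K' → V M) → V K' → W) (J : Finset K') (d : K' → V M) :
    ‖yh y J d‖ ^ 2 ≤ avg fun w => ‖y d w‖ ^ 2 := by
  have := norm_avg_smul_sq_le (fun w : V K' => ∏ j ∈ J, e (w j)) (fun _ => 1) (y d)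
    (fun w => by simp [abs_prod, abs_e]) (by simp)
  simpa only [one_mul, yh] using this

/-- The bilinear phase. -/
def bil (J : Finset K') (τ : J → V T) (a : (T → V M) × (T → V K')) (d : K' → V M) : ZMod 2 :=
  ∑ j : J, ∑ t, τ j t * (a.1 t ⬝ᵥ d j)

lemma bil_add_left (J : Finset K') (τ : J → V T) (a a' : (T → V M) × (T → V K'))
    (d : K' → V M) : bil J τ (a + a') d = bil J τ a d + bil J τ a' d := by
  simp [bil, mul_add, sum_add_distrib]

lemma bil_add_right (J : Finset K') (τ : J → V T) (a : (T → V M) × (T → V K'))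
    (d d' : K' → V M) : bil J τ a (d + d') = bil J τ a d + bil J τ a d' := by
  simp [bil, mul_add, sum_add_distrib]

lemma bil_single (J : Finset K') (τ : J → V T) (t : T) (j : J) (α d : V M) :
    bil J τ (Pi.single t α, 0) (Pi.single j d) = τ j t * (α ⬝ᵥ d) := by
  rw [bil, sum_eq_single j, sum_eq_single t]
  · simp
  · intro t' _ ht'
    simp [Pi.single_eq_of_ne ht']
  · simp
  · intro j' _ hj'
    have : (j' : K') ≠ j := fun h => hj' (Subtype.ext h)
    simp [Pi.single_eq_of_ne this]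
  · simp

lemma prod_sg (sh : V T → ℝ) (J : Finset K') (a : (T → V M) × (T → V K')) (d : K' → V M) :
    ∏ j ∈ J, sg sh (u a d j) = ∑ τ : J → V T, (∏ j, sh (τ j)) *
      e (bil J τ a d + ∑ j : J, ∑ t, τ j t * a.2 t j) := by
  rw [← prod_coe_sort J]
  simp only [sg]
  rw [Fintype.prod_sum]
  refine sum_congr rfl fun τ _ => ?_
  rw [prod_mul_distrib, ← e_sum, bil, ← sum_add_distrib]
  congr 2
  refine sum_congr rfl fun j _ => ?_
  rw [← sum_add_distrib, dotProduct]
  exact sum_congr rfl fun t _ => mul_add _ _ _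

lemma sum_const_le {sh : V T → ℝ} {κ : ℝ} (hκ : ∀ τ, |sh τ| ≤ κ) (h2 : ∑ τ, sh τ ^ 2 ≤ 1)
    {J : Type} [Fintype J] [DecidableEq J] (j0 : J) (hJ : 2 ≤ Fintype.card J) :
    ∑ τ : J → V T, (if ∀ j, τ j = τ j0 then ∏ j, |sh (τ j)| else 0) ≤
      κ ^ (Fintype.card J - 2) := by
  have hκ0 : 0 ≤ κ := (abs_nonneg _).trans (hκ 0)
  rw [← sum_filter]
  have e1 : (univ.filter fun τ : J → V T => ∀ j, τ j = τ j0) =
      univ.image fun (v : V T) (_ : J) => v := by
    ext τ
    simp only [mem_filter, mem_univ, true_and, mem_image]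
    exact ⟨fun h => ⟨τ j0, funext fun j => (h j).symm⟩, by rintro ⟨v, rfl⟩ j; rfl⟩
  rw [e1, sum_image fun v _ v' _ h => congrFun h j0]
  simp only [prod_const, card_univ]
  calc ∑ v, |sh v| ^ Fintype.card J ≤ ∑ v, κ ^ (Fintype.card J - 2) * sh v ^ 2 := by
        refine sum_le_sum fun v _ => ?_
        conv_lhs => rw [← Nat.sub_add_cancel hJ, pow_add, sq_abs]
        gcongr
        exact hκ v
    _ ≤ _ := by
        rw [← mul_sum]
        exact mul_le_of_le_one_right (by positivity) h2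

lemma term_bound (hneg : ∀ l s, Adm l s → Adm (-l) s) (hpos : ∀ l s, Adm l s → 0 ≤ s)
    {t0 : T} {sh : V T → ℝ} {κ Ξ : ℝ}
    (hodd : ∀ τ, sh τ ≠ 0 → τ t0 = 1) (hκ : ∀ τ, |sh τ| ≤ κ) (h2 : ∑ τ, sh τ ^ 2 ≤ 1)
    (h1 : ∑ τ, |sh τ| ≤ Ξ) (X : (T → V M) × (T → V K') → W →ₗ[ℝ] ℝ)
    (S : (T → V M) × (T → V K') → ℝ) (hX : ∀ a, Adm (X a) (S a)) (Y : (K' → V M) → W)
    {L₁ L₂ lam : ℝ} (hL₁ : 0 ≤ L₁) (hL₂ : 0 ≤ L₂) (hlam : 0 < lam)
    (H1 : HB Adm M L₁) (H2 : HB Adm (M ⊕ M) L₂) (J : Finset K') (hJ : 2 ≤ J.card) :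
    |avg fun a => avg fun d => (∏ j ∈ J, sg sh (u a d j)) * X a (Y d)| ≤
      (L₁ * κ ^ (J.card - 2) + L₂ * Ξ ^ J.card) *
        (lam * avg S + lam⁻¹ * avg fun b => ‖Y b‖ ^ 2) / 2 := by
  obtain ⟨j0, hj0⟩ := card_pos.1 (by omega : 0 < J.card)
  set Br := lam * avg S + lam⁻¹ * avg fun b => ‖Y b‖ ^ 2 with hBr
  have hBr0 : 0 ≤ Br := add_nonneg (mul_nonneg hlam.le (avg_nonneg fun a => hpos _ _ (hX a)))
    (mul_nonneg (inv_nonneg.2 hlam.le) (avg_nonneg fun _ => sq_nonneg _))
  simp only [prod_sg, sum_mul, avg_sum, mul_assoc, avg_mul_left]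
  refine (abs_sum_le_sum_abs _ _).trans ?_
  calc _ ≤ ∑ τ : J → V T, ((if ∀ j, τ j = τ ⟨j0, hj0⟩ then ∏ j, |sh (τ j)| else 0) *
        (L₁ * Br / 2) + (∏ j, |sh (τ j)|) * (L₂ * Br / 2)) := by
        refine sum_le_sum fun τ _ => ?_
        rw [abs_mul, abs_prod]
        have hp : 0 ≤ ∏ j, |sh (τ j)| := prod_nonneg fun _ _ => abs_nonneg _
        by_cases h0 : ∏ j, |sh (τ j)| = 0
        · simp only [h0, ite_self, zero_mul, add_zero, le_refl]
        have ht : ∀ j, τ j t0 = 1 := fun j =>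
          hodd _ (abs_ne_zero.1 (prod_ne_zero_iff.1 h0 j (mem_univ j)))
        split_ifs with hc
        · have := phase hneg H1 hlam (bil J τ) (fun a => ∑ j : J, ∑ t, τ j t * a.2 t j)
            (bil_add_left J τ) (bil_add_right J τ) (fun α => (Pi.single t0 α, 0))
            (fun d => Pi.single j0 d)
            (fun α d => by rw [bil_single J τ t0 ⟨j0, hj0⟩, ht, one_mul]) X S hX Y
          exact le_add_of_le_of_nonneg (mul_le_mul_of_nonneg_left this hp) (by positivity)
        · obtain ⟨j1, j2, t, h1, h2⟩ : ∃ j1 j2 t, τ j1 t = 0 ∧ τ j2 t = 1 := by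
            push Not at hc
            obtain ⟨j, hj⟩ := hc
            obtain ⟨t, ht⟩ := Function.ne_iff.1 hj
            rcases zmod2_cases (τ j t) with h | h <;>
              rcases zmod2_cases (τ ⟨j0, hj0⟩ t) with h' | h'
            · exact absurd (h.trans h'.symm) ht
            · exact ⟨_, _, t, h, h'⟩
            · exact ⟨_, _, t, h', h⟩
            · exact absurd (h.trans h'.symm) ht
          have := phase hneg H2 hlam (bil J τ) (fun a => ∑ j : J, ∑ t, τ j t * a.2 t j)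
            (bil_add_left J τ) (bil_add_right J τ)
            (fun α => (Pi.single t0 (α ∘ Sum.inl), 0) + (Pi.single t (α ∘ Sum.inl + α ∘ Sum.inr), 0))
            (fun d => Pi.single (j1 : K') (d ∘ Sum.inl) + Pi.single (j2 : K') (d ∘ Sum.inr))
            (fun α d => by
              rw [bil_add_left, bil_add_right, bil_add_right, bil_single, bil_single, bil_single,
                bil_single, ht, ht, h1, h2, add_dotProduct, add_dotProduct]
              have e1 : α ⬝ᵥ d = (α ∘ Sum.inl) ⬝ᵥ (d ∘ Sum.inl) + (α ∘ Sum.inr) ⬝ᵥ (d ∘ Sum.inr) := by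
                simp [dotProduct]
              rw [e1]
              linear_combination add_self2 ((α ∘ Sum.inl) ⬝ᵥ (d ∘ Sum.inr))) X S hX Y
          rw [zero_mul, zero_add]
          exact mul_le_mul_of_nonneg_left this hp
    _ ≤ κ ^ (J.card - 2) * (L₁ * Br / 2) + Ξ ^ J.card * (L₂ * Br / 2) := by
        rw [sum_add_distrib, ← sum_mul, ← sum_mul]
        refine add_le_add (mul_le_mul_of_nonneg_right ?_ (by positivity))
          (mul_le_mul_of_nonneg_right ?_ (by positivity))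
        · have := sum_const_le hκ h2 (⟨j0, hj0⟩ : J) (by simpa using hJ)
          simpa only [Fintype.card_coe] using this
        · rw [← Fintype.prod_sum fun (_ : J) (τ : V T) => |sh τ|, prod_const, card_univ,
            Fintype.card_coe]
          exact pow_le_pow_left₀ (sum_nonneg fun _ _ => abs_nonneg _) h1 _
    _ = _ := by ring

/-- The odd Riesz product. -/
noncomputable def wt (f : K' → ℝ) : ℝ := (∏ j, (1 + f j) - ∏ j, (1 + -f j)) / 2

/-- The even Riesz product. -/
noncomputable def pw (f : K' → ℝ) : ℝ := (∏ j, (1 + f j) + ∏ j, (1 + -f j)) / 2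

lemma wt_eq (f : K' → ℝ) :
    wt f = ∑ J ∈ univ.powerset, (if Odd J.card then 1 else 0) * ∏ j ∈ J, f j := by
  rw [wt, prod_one_add, prod_one_add, ← sum_sub_distrib, sum_div]
  refine sum_congr rfl fun J _ => ?_
  rw [prod_neg]
  rcases Nat.even_or_odd J.card with h | h
  · simp [h.neg_one_pow, Nat.not_odd_iff_even.2 h]
  · simp [h.neg_one_pow, h]

lemma wt_mul (f : K' → ℝ) (z : ZMod 2) : wt (fun j => e z * f j) = e z * wt f := by
  rcases e_cases z with h | h
  · simp [h]
  · simp only [h, wt, neg_mul, one_mul, neg_neg]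
    ring

lemma abs_wt_le {f : K' → ℝ} (h : ∀ j, |f j| ≤ 1) : |wt f| ≤ pw f := by
  have h1 : 0 ≤ ∏ j, (1 + f j) := prod_nonneg fun j _ => by linarith [(abs_le.1 (h j)).1]
  have h2 : 0 ≤ ∏ j, (1 + -f j) := prod_nonneg fun j _ => by linarith [(abs_le.1 (h j)).2]
  rw [wt, pw, abs_le]
  constructor <;> linarith

lemma avg_pw {A : Type*} [Fintype A] [AddGroup A] (f : K' → A → ℝ)
    (c : K' → A) (h1 : ∀ j a, f j (a + c j) = -f j a)
    (h2 : ∀ i j a, i ≠ j → f i (a + c j) = f i a) : (avg fun a => pw fun j => f j a) = 1 := by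
  simp only [pw, avg_div, avg_add]
  rw [avg_prod_one_add f c h1 h2, avg_prod_one_add (fun j a => -f j a) c
    (fun j a => by rw [h1]) fun i j a h => by rw [h2 i j a h]]
  norm_num

lemma main_bound {t0 : T} {sh : V T → ℝ} (hodd : ∀ τ, sh τ ≠ 0 → τ t0 = 1)
    (hσ : ∀ v, |sg sh v| ≤ 1) (X : (T → V M) × (T → V K') → W →ₗ[ℝ] ℝ)
    (S : (T → V M) × (T → V K') → ℝ) (hX : ∀ a, Adm (X a) (S a)) (y : (K' → V M) → V K' → W)
    {L₁ lam : ℝ} (hL₁ : 0 ≤ L₁) (hlam : 0 < lam) (H1 : HB Adm M L₁) :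
    (avg fun a => avg fun d =>
      X a (avg fun w : V K' => wt (fun j => e (w j) * sg sh (u a d j)) • y d w)) ≤
      L₁ * (lam * avg S + lam⁻¹ * avg fun d => avg fun w => ‖y d w‖ ^ 2) / 2 := by
  set Y : (T → V M) × (T → V K') → (K' → V M) → W := fun a d =>
    avg fun w : V K' => wt (fun j => e (w j) * sg sh (u a d j)) • y d w with hY
  have h := H1.cond hlam (fun a d => X a (Y a d))
    (fun b α => (Pi.single t0 α, Pi.single t0 fun j => α ⬝ᵥ b j)) (fun d' _ => d')
    (fun a b α => X (a + (Pi.single t0 α, Pi.single t0 fun j => α ⬝ᵥ b j)))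
    (fun a b α => S (a + (Pi.single t0 α, Pi.single t0 fun j => α ⬝ᵥ b j)))
    (fun a b d' => Y a (b + fun _ => d')) (fun a b α => hX _) (fun a b α d' => by
      have e1 : ∀ j, u (a + (Pi.single t0 α, Pi.single t0 fun j => α ⬝ᵥ b j)) (b + fun _ => d') j =
          u a (b + fun _ => d') j + Pi.single t0 (α ⬝ᵥ d') := fun j => by
        funext t
        by_cases ht : t = t0
        · subst ht
          simp only [u, Prod.fst_add, Prod.snd_add, Pi.add_apply, Pi.single_eq_same,
            add_dotProduct, dotProduct_add]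
          linear_combination add_self2 (α ⬝ᵥ b j)
        · simp [u, Pi.single_eq_of_ne ht]
      simp only [hY, e1, sg_add_single hodd, mul_left_comm _ (e (α ⬝ᵥ d')), wt_mul, mul_smul,
        avg_smul, map_smul, smul_eq_mul])
  rw [avg_shift3 S] at h
  refine h.trans ?_
  gcongr
  have e2 : ∀ a, (avg fun b => avg fun d' : V M => ‖Y a (b + fun _ => d')‖ ^ 2) =
      avg fun b => ‖Y a b‖ ^ 2 := fun a => avg_shift2 (fun b => ‖Y a b‖ ^ 2) _
  simp only [e2]
  calc _ ≤ avg fun a => avg fun d => avg fun w : V K' =>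
        pw (fun j => e (w j) * sg sh (u a d j)) * ‖y d w‖ ^ 2 := by
        refine avg_mono fun a => avg_mono fun d => norm_avg_smul_sq_le _ _ _ (fun w =>
          abs_wt_le fun j => by rw [abs_mul, abs_e, one_mul]; exact hσ _) (le_of_eq ?_)
        refine avg_pw (fun j (w : V K') => e (w j) * sg sh (u a d j)) (fun j => Pi.single j 1)
          (fun j w => by simp [e_add]) fun i j w hij => by simp [Pi.single_eq_of_ne hij]
    _ = _ := by
        rw [avg_comm]
        congr 1
        funext d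
        rw [avg_comm]
        congr 1
        funext w
        have e3 : ∀ i j (a : (T → V M) × (T → V K')),
            u (a + (0, Pi.single t0 (Pi.single j 1))) d i =
              u a d i + Pi.single t0 ((Pi.single j 1 : V K') i) := fun i j a => by
          funext t
          by_cases ht : t = t0
          · subst ht
            simp [u, add_assoc]
          · simp [u, Pi.single_eq_of_ne ht]
        rw [avg_mul_right, avg_pw (fun j a => e (w j) * sg sh (u a d j))
          (fun j => (0, Pi.single t0 (Pi.single j 1)))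
          (fun j a => by rw [e3, sg_add_single hodd]; simp)
          (fun i j a hij => by rw [e3, sg_add_single hodd]; simp [Pi.single_eq_of_ne hij]),
          one_mul]

lemma sum_kappa_le {κ : ℝ} (hκ0 : 0 ≤ κ) (hκk : (Fintype.card K' : ℝ) ^ 4 * κ ≤ 1) :
    ∑ J ∈ (univ : Finset K').powerset, (if 3 ≤ J.card then κ ^ (J.card - 2) else 0) ≤ 1 := by
  rw [sum_powerset_apply_card fun l => if 3 ≤ l then κ ^ (l - 2) else 0, card_univ, sum_range_succ']
  set k := Fintype.card K'
  simp only [nonpos_iff_eq_zero, OfNat.ofNat_ne_zero, if_false, smul_zero, add_zero]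
  refine (sum_le_card_nsmul _ _ ((k : ℝ) ^ 3 * κ) fun l hl => ?_).trans ?_
  · have hk : (1 : ℝ) ≤ k := by
      have := mem_range.1 hl
      exact_mod_cast (by omega : 1 ≤ k)
    split_ifs with h3
    · obtain ⟨m, hm⟩ : ∃ m, l + 1 = m + 3 := ⟨l + 1 - 3, by omega⟩
      have h4 : (k : ℝ) * κ ≤ 1 := le_trans (by
        gcongr
        exact le_self_pow₀ hk (by norm_num)) hκk
      have h5 : ((k.choose (l + 1) : ℕ) : ℝ) ≤ (k : ℝ) ^ (l + 1) := by
        exact_mod_cast Nat.choose_le_pow k (l + 1)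
      rw [nsmul_eq_mul]
      calc _ ≤ (k : ℝ) ^ (l + 1) * κ ^ (l + 1 - 2) := by gcongr
        _ = (k : ℝ) ^ 3 * κ * (k * κ) ^ m := by
            rw [hm, show m + 3 - 2 = m + 1 by omega]
            ring
        _ ≤ _ := mul_le_of_le_one_right (by positivity) (pow_le_one₀ (by positivity) h4)
    · rw [smul_zero]
      positivity
  · rw [card_range, nsmul_eq_mul]
    linarith

end defs

end StageB

open StageB in
theorem stageB {W : Type*} [NormedAddCommGroup W] [NormedSpace ℝ W]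
    (Adm : (W →ₗ[ℝ] ℝ) → ℝ → Prop) (hneg : ∀ l s, Adm l s → Adm (-l) s)
    (hpos : ∀ l s, Adm l s → 0 ≤ s)
    (M K' T : Type) [Fintype M] [DecidableEq M] [Fintype K'] [DecidableEq K']
    [Fintype T] [DecidableEq T] (t0 : T) (sh : V T → ℝ) (κ Ξ : ℝ)
    (hodd : ∀ τ, sh τ ≠ 0 → τ t0 = 1) (hκ : ∀ τ, |sh τ| ≤ κ) (h2 : ∑ τ, sh τ ^ 2 ≤ 1)
    (h1 : ∑ τ, |sh τ| ≤ Ξ) (hσ : ∀ u : V T, |∑ τ, sh τ * e (τ ⬝ᵥ u)| ≤ 1)
    (hκk : (Fintype.card K' : ℝ) ^ 4 * κ ≤ 1)
    (x : (T → V M) → (T → V K') → W →ₗ[ℝ] ℝ) (s : (T → V M) → (T → V K') → ℝ)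
    (hx : ∀ c ψ, Adm (x c ψ) (s c ψ))
    (G : V M → K' → W) (y : (K' → V M) → V K' → W)
    (hy : ∀ d j, (avg fun w : V K' => e (w j) • y d w) = G (d j) j)
    (L₁ L₂ lam : ℝ) (hL₁ : 0 ≤ L₁) (hL₂ : 0 ≤ L₂) (hlam : 0 < lam)
    (H1 : HB Adm M L₁) (H2 : HB Adm (M ⊕ M) L₂) :
    ∑ j, (avg fun c : T → V M => avg fun ψ : T → V K' => avg fun d : V M =>
        (∑ τ, sh τ * e (τ ⬝ᵥ fun t => c t ⬝ᵥ d + ψ t j)) * x c ψ (G d j)) ≤
      (2 * L₁ + L₂ * (1 + Ξ) ^ Fintype.card K') *
        (lam * (avg fun c => avg fun ψ => s c ψ) +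
          lam⁻¹ * avg fun d => avg fun w => ‖y d w‖ ^ 2) / 2 := by
  let X : (T → V M) × (T → V K') → W →ₗ[ℝ] ℝ := fun a => x a.1 a.2
  let S : (T → V M) × (T → V K') → ℝ := fun a => s a.1 a.2
  have hX : ∀ a, Adm (X a) (S a) := fun a => hx _ _
  have hS : (avg fun c => avg fun ψ => s c ψ) = avg S := (avg_prod S).symm
  rw [hS]
  set Br := lam * avg S + lam⁻¹ * avg fun d => avg fun w => ‖y d w‖ ^ 2 with hBr
  have hBr0 : 0 ≤ Br := add_nonneg (mul_nonneg hlam.le (avg_nonneg fun a => hpos _ _ (hX a)))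
    (mul_nonneg (inv_nonneg.2 hlam.le) (avg_nonneg fun _ => avg_nonneg fun _ => sq_nonneg _))
  have hκ0 : 0 ≤ κ := (abs_nonneg _).trans (hκ 0)
  have hΞ : 0 ≤ Ξ := (sum_nonneg fun _ _ => abs_nonneg _).trans h1
  let term : Finset K' → ℝ := fun J =>
    avg fun a => avg fun d => (∏ j ∈ J, sg sh (u a d j)) * X a (yh y J d)
  have hL : ∀ j, (avg fun c : T → V M => avg fun ψ : T → V K' => avg fun d : V M =>
      (∑ τ, sh τ * e (τ ⬝ᵥ fun t => c t ⬝ᵥ d + ψ t j)) * x c ψ (G d j)) = term {j} := by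
    intro j
    simp only [term, prod_singleton, yh, hy]
    rw [avg_prod]
    congr 1
    funext c
    congr 1
    funext ψ
    exact (avg_comp_of_section (fun d : K' → V M => d j) (fun v => Pi.single j v)
      (fun d v => by simp)
      fun d => (∑ τ, sh τ * e (τ ⬝ᵥ fun t => c t ⬝ᵥ d + ψ t j)) * x c ψ (G d j)).symm
  have hQ : ∑ J ∈ univ.powerset, (if Odd J.card then 1 else 0) * term J ≤ L₁ * Br / 2 := by
    refine le_trans (le_of_eq ?_) (main_bound hodd hσ X S hX y hL₁ hlam H1)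
    simp only [term, wt_eq, sum_smul, avg_sum, map_sum, ← avg_mul_left]
    refine sum_congr rfl fun J _ => ?_
    congr 1
    funext a
    congr 1
    funext d
    simp only [yh, map_avg, ← avg_mul_left, map_smul, smul_eq_mul, prod_mul_distrib]
    congr 1
    funext w
    ring
  have hT : ∀ J : Finset K', 2 ≤ J.card →
      |term J| ≤ (L₁ * κ ^ (J.card - 2) + L₂ * Ξ ^ J.card) * Br / 2 := fun J hJ => by
    refine (term_bound hneg hpos hodd hκ h2 h1 X S hX (yh y J) hL₁ hL₂ hlam H1 H2 J hJ).trans ?_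
    have := avg_mono (norm_yh y J)
    rw [hBr]
    gcongr
  have h3 : ∑ j, term {j} = ∑ J ∈ univ.powerset, if J.card = 1 then term J else 0 := by
    rw [← sum_filter, ← powersetCard_eq_filter, powersetCard_one, sum_map]
    rfl
  have h4 : ∑ J ∈ univ.powerset, (if J.card = 1 then term J else 0) ≤
      ∑ J ∈ univ.powerset, ((if Odd J.card then 1 else 0) * term J +
        ((if 3 ≤ J.card then κ ^ (J.card - 2) else 0) * (L₁ * Br / 2) +
          Ξ ^ J.card * (L₂ * Br / 2))) := by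
    refine sum_le_sum fun J _ => ?_
    by_cases hJ : 3 ≤ J.card
    · have h5 := hT J (by omega)
      have h6 : 0 ≤ (L₁ * κ ^ (J.card - 2) + L₂ * Ξ ^ J.card) * Br / 2 := by positivity
      rw [if_neg (by omega), if_pos hJ]
      have h7 := neg_abs_le (term J)
      split_ifs <;> linarith
    · have h6 : 0 ≤ Ξ ^ J.card * (L₂ * Br / 2) := by positivity
      rw [if_neg hJ, zero_mul, zero_add]
      refine le_add_of_le_of_nonneg (le_of_eq ?_) h6
      have : Odd J.card ↔ J.card = 1 := by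
        rw [Nat.odd_iff]
        omega
      simp only [this, ite_mul, one_mul, zero_mul]
  have h5 : ∑ J ∈ (univ : Finset K').powerset, Ξ ^ J.card = (1 + Ξ) ^ Fintype.card K' := by
    rw [← card_univ, ← prod_const, prod_one_add]
    simp only [prod_const]
  simp only [hL]
  rw [sum_add_distrib, sum_add_distrib, ← sum_mul, ← sum_mul, h5] at h4
  have h6 := mul_le_of_le_one_left (show 0 ≤ L₁ * Br / 2 by positivity) (sum_kappa_le hκ0 hκk)
  rw [h3]
  linarith

end Crest.Agent.R118
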