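import Crest.Agent.R118.Basic

/-! Row 118: test families built from bent functions. -/

set_option autoImplicit false

namespace Crest.Agent.R118

open Finset

namespace TestsAux

/-- Fourier synthesis. -/
noncomputable def ft {T : Type} [Fintype T] [DecidableEq T] (c : V T → ℝ) (u : V T) : ℝ :=
  ∑ τ, c τ * e (τ ⬝ᵥ u)

section prod
variable {A B : Type} [Fintype A] [DecidableEq A] [Fintype B] [DecidableEq B]

lemma sum_split (f : V A → V B → ℝ) :
    ∑ τ : V (A ⊕ B), f (τ ∘ Sum.inl) (τ ∘ Sum.inr) = ∑ a, ∑ b, f a b := by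
  rw [← Fintype.sum_prod_type']
  exact Equiv.sum_comp (Equiv.sumArrowEquivProdArrow A B (ZMod 2)) (fun x => f x.1 x.2)

lemma avg_split (f : V A → V B → ℝ) :
    (avg fun τ : V (A ⊕ B) => f (τ ∘ Sum.inl) (τ ∘ Sum.inr)) = avg fun a => avg fun b => f a b := by
  rw [← avg_prod (fun x : V A × V B => f x.1 x.2)]
  exact avg_equiv (Equiv.sumArrowEquivProdArrow A B (ZMod 2)) (fun x => f x.1 x.2)

omit [DecidableEq A] [DecidableEq B] in
lemma dot_split (τ u : V (A ⊕ B)) :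
    τ ⬝ᵥ u = (τ ∘ Sum.inl) ⬝ᵥ (u ∘ Sum.inl) + (τ ∘ Sum.inr) ⬝ᵥ (u ∘ Sum.inr) :=
  Fintype.sum_sum_type _

/-- Tensor product of coefficient families. -/
def tens (c : V A → ℝ) (d : V B → ℝ) (τ : V (A ⊕ B)) : ℝ := c (τ ∘ Sum.inl) * d (τ ∘ Sum.inr)

lemma ft_tens (c : V A → ℝ) (d : V B → ℝ) (u : V (A ⊕ B)) :
    ft (tens c d) u = ft c (u ∘ Sum.inl) * ft d (u ∘ Sum.inr) := by
  unfold ft tens
  rw [sum_mul_sum, ← sum_split]
  refine sum_congr rfl fun τ _ => ?_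
  rw [dot_split, e_add]; ring

lemma sum_abs_tens (c : V A → ℝ) (d : V B → ℝ) :
    ∑ τ, |tens c d τ| = (∑ a, |c a|) * ∑ b, |d b| := by
  rw [sum_mul_sum, ← sum_split]
  simp only [tens, abs_mul]

lemma sum_sq_tens (c : V A → ℝ) (d : V B → ℝ) :
    ∑ τ, tens c d τ ^ 2 = (∑ a, c a ^ 2) * ∑ b, d b ^ 2 := by
  rw [sum_mul_sum, ← sum_split]
  simp only [tens, mul_pow]

omit [Fintype A] [DecidableEq A] [Fintype B] [DecidableEq B] in
lemma abs_tens_le {c : V A → ℝ} {d : V B → ℝ} {x y : ℝ} (hc : ∀ a, |c a| ≤ x)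
    (hd : ∀ b, |d b| ≤ y) (τ : V (A ⊕ B)) : |tens c d τ| ≤ x * y := by
  rw [tens, abs_mul]
  exact mul_le_mul (hc _) (hd _) (abs_nonneg _) ((abs_nonneg _).trans (hc 0))

lemma ft_add (c d : V A → ℝ) (u : V A) : ft (fun τ => c τ + d τ) u = ft c u + ft d u := by
  simp only [ft, add_mul, sum_add_distrib]

lemma ft_mul (k : ℝ) (c : V A → ℝ) (u : V A) : ft (fun τ => k * c τ) u = k * ft c u := by
  simp only [ft, mul_sum, mul_assoc]

/-- The point mass at `0`. -/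
def dl (τ : V A) : ℝ := if τ = 0 then 1 else 0

lemma ft_dl (u : V A) : ft dl u = 1 := by
  simp [ft, dl]

lemma sum_abs_dl : ∑ τ : V A, |dl τ| = 1 := by
  simp [dl, apply_ite abs]

lemma sum_sq_dl : ∑ τ : V A, dl τ ^ 2 = 1 := by
  simp [dl]

lemma ft_zero (u : V A) : ft (fun _ => 0) u = 0 := by
  simp [ft]

end prod

lemma sum_unit (f : V Unit → ℝ) : ∑ τ, f τ = f 0 + f 1 := by
  rw [← Equiv.sum_comp (Equiv.funUnique Unit (ZMod 2)).symm, sum_zmod2]
  rfl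

lemma avg_unit (f : V Unit → ℝ) : avg f = (f 0 + f 1) / 2 := by
  rw [avg, sum_unit, card_V]
  simp only [Fintype.card_unique, pow_one, smul_eq_mul]
  ring

/-- One free bit. -/
def bit (τ : V Unit) : ℝ := if τ () = 1 then 1 else 0

@[simp] lemma bit_zero : bit 0 = 0 := by simp [bit]
@[simp] lemma bit_one : bit 1 = 1 := by simp [bit]

lemma ft_bit_zero : ft bit 0 = 1 := by
  rw [ft, sum_unit]; simp

lemma ft_bit_one : ft bit 1 = -1 := by
  rw [ft, sum_unit]; simp [dotProduct]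

lemma abs_bit_le (τ : V Unit) : |bit τ| ≤ 1 := by
  unfold bit; split_ifs <;> simp

lemma sum_abs_bit : ∑ τ, |bit τ| = 1 := by rw [sum_unit]; simp

lemma sum_sq_bit : ∑ τ, bit τ ^ 2 = 1 := by rw [sum_unit]; simp

lemma abs_ft_bit (u : V Unit) : |ft bit u| = 1 := by
  have : u = 0 ∨ u = 1 := by
    rcases zmod2_cases (u ()) with h | h
    · exact Or.inl (funext fun _ => h)
    · exact Or.inr (funext fun _ => h)
  rcases this with rfl | rfl
  · simp [ft_bit_zero]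
  · simp [ft_bit_one]

/-- The bent function. -/
noncomputable def bent (δ : ℕ) (τ : V (Fin δ ⊕ Fin δ)) : ℝ :=
  1 / 2 ^ δ * e ((τ ∘ Sum.inl) ⬝ᵥ (τ ∘ Sum.inr))

lemma abs_bent (δ : ℕ) (τ : V (Fin δ ⊕ Fin δ)) : |bent δ τ| = 1 / 2 ^ δ := by
  rw [bent, abs_mul, abs_e, mul_one, abs_of_pos (by positivity)]

lemma card_bent (δ : ℕ) : (Fintype.card (V (Fin δ ⊕ Fin δ)) : ℝ) = 2 ^ δ * 2 ^ δ := by
  rw [card_V, Fintype.card_sum, Fintype.card_fin, pow_add]

lemma sum_abs_bent (δ : ℕ) : ∑ τ, |bent δ τ| = 2 ^ δ := by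
  simp only [abs_bent, sum_const, card_univ, nsmul_eq_mul, card_bent]
  field_simp

lemma sum_sq_bent (δ : ℕ) : ∑ τ, bent δ τ ^ 2 = 1 := by
  simp only [← sq_abs (bent δ _), abs_bent, sum_const, card_univ, nsmul_eq_mul, card_bent]
  field_simp

lemma ft_bent (δ : ℕ) (u : V (Fin δ ⊕ Fin δ)) :
    ft (bent δ) u = e ((u ∘ Sum.inl) ⬝ᵥ (u ∘ Sum.inr)) := by
  have h1 : ft (bent δ) u = ∑ a : V (Fin δ), ∑ b : V (Fin δ),
      e (a ⬝ᵥ (u ∘ Sum.inl)) * (1 / 2 ^ δ * e ((a + u ∘ Sum.inr) ⬝ᵥ b)) := by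
    rw [← sum_split]
    refine sum_congr rfl fun τ _ => ?_
    rw [bent, dot_split τ u, add_dotProduct, e_add, e_add, dotProduct_comm (u ∘ Sum.inr)]
    ring
  have h2 : ∀ c : V (Fin δ), ∑ b : V (Fin δ), 1 / 2 ^ δ * e (c ⬝ᵥ b) = if c = 0 then 1 else 0 := by
    intro c
    rw [← avg_e_dot, avg, card_V, Fintype.card_fin, smul_eq_mul, mul_sum, one_div]
  have h3 : ∀ a : V (Fin δ), ∑ b : V (Fin δ),
      e (a ⬝ᵥ (u ∘ Sum.inl)) * (1 / 2 ^ δ * e ((a + u ∘ Sum.inr) ⬝ᵥ b)) =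
      e (a ⬝ᵥ (u ∘ Sum.inl)) * (if a + u ∘ Sum.inr = 0 then 1 else 0) := fun a => by
    rw [← mul_sum, h2]
  rw [h1]
  simp only [h3, V.add_eq_zero_iff, mul_ite, mul_one, mul_zero,
    sum_ite_eq', mem_univ, if_true]
  rw [dotProduct_comm]

lemma gadget (δ : ℕ) : ∃ (T : Type) (_ : Fintype T) (_ : DecidableEq T) (s : V T → ℝ),
    (∀ τ, |s τ| ≤ 1 / 2 ^ δ) ∧ ∑ τ, s τ ^ 2 = 1 ∧ ∑ τ, |s τ| = 2 ^ δ ∧ (∀ u, |ft s u| = 1) ∧
    ∀ q : ℝ → ℝ, (avg fun u => q (ft s u)) = (q 1 + q (-1)) / 2 := by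
  refine ⟨Unit ⊕ (Fin δ ⊕ Fin δ), inferInstance, inferInstance, tens bit (bent δ), fun τ => ?_,
    ?_, ?_, fun u => ?_, fun q => ?_⟩
  · simpa using abs_tens_le abs_bit_le (fun b => (abs_bent δ b).le) τ
  · rw [sum_sq_tens, sum_sq_bit, sum_sq_bent, one_mul]
  · rw [sum_abs_tens, sum_abs_bit, sum_abs_bent, one_mul]
  · rw [ft_tens, abs_mul, abs_ft_bit, ft_bent, abs_e, one_mul]
  · simp only [ft_tens]
    rw [avg_split (fun a b => q (ft bit a * ft (bent δ) b)), avg_comm]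
    have : ∀ b, (avg fun a => q (ft bit a * ft (bent δ) b)) = (q 1 + q (-1)) / 2 := by
      intro b
      rw [avg_unit, ft_bit_zero, ft_bit_one, ft_bent]
      rcases e_cases ((b ∘ Sum.inl) ⬝ᵥ (b ∘ Sum.inr)) with h | h <;> rw [h] <;> simp [add_comm]
    simp only [this, avg_const]

lemma core (δ : ℕ) (h : ℝ) (hh : 0 ≤ h) (r : ℕ) :
    ∃ (T : Type) (_ : Fintype T) (_ : DecidableEq T) (zh sh : V T → ℝ),
      ∑ τ, |zh τ| ≤ r * h * 2 ^ δ ∧ (∀ τ, |sh τ| ≤ (1 / 2 ^ δ) ^ r) ∧ ∑ τ, sh τ ^ 2 ≤ 1 ∧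
      ∑ τ, |sh τ| ≤ (2 ^ δ) ^ r ∧ (∀ u, |ft sh u| ≤ 1) ∧
      ∀ p : ℝ → ℝ, (avg fun u => ft sh u * p (ft zh u)) = (1 / 2) ^ r * (fwdDiff h)^[r] p 0 := by
  induction r with
  | zero =>
    refine ⟨Empty, inferInstance, inferInstance, fun _ => 0, dl, by simp, fun τ => ?_, ?_, ?_,
      fun u => by simp [ft_dl], fun p => ?_⟩
    · unfold dl; split_ifs <;> simp
    · rw [sum_sq_dl]
    · rw [sum_abs_dl, pow_zero]
    · simp only [ft_dl, ft_zero, avg_const, pow_zero, Function.iterate_zero, id]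
  | succ r ih =>
    obtain ⟨T, _, _, zh, sh, h1, h2, h3, h4, h5, h6⟩ := ih
    obtain ⟨U, _, _, s, g1, g2, g3, g4, g5⟩ := gadget δ
    refine ⟨T ⊕ U, inferInstance, inferInstance,
      fun τ => tens zh dl τ + tens dl (fun b => h / 2 * (dl b + s b)) τ, tens sh s, ?_,
      fun τ => ?_, ?_, ?_, fun u => ?_, fun p => ?_⟩
    · have k1 : ∑ b : V U, |h / 2 * (dl b + s b)| ≤ h * 2 ^ δ := by
        have k2 : ∑ b : V U, |h / 2 * (dl b + s b)| ≤ ∑ b : V U, h / 2 * (|dl b| + |s b|) :=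
          sum_le_sum fun b _ => by
            rw [abs_mul, abs_of_nonneg (by positivity : 0 ≤ h / 2)]
            exact mul_le_mul_of_nonneg_left (abs_add_le _ _) (by positivity)
        rw [← mul_sum, sum_add_distrib, sum_abs_dl, g3] at k2
        have k3 : (1 : ℝ) ≤ 2 ^ δ := one_le_pow₀ one_le_two
        nlinarith
      refine (sum_le_sum fun τ _ => abs_add_le _ _).trans ?_
      rw [sum_add_distrib, sum_abs_tens, sum_abs_tens, sum_abs_dl, sum_abs_dl]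
      push_cast
      linarith
    · rw [pow_succ]; exact abs_tens_le h2 g1 τ
    · rw [sum_sq_tens, g2, mul_one]; exact h3
    · rw [sum_abs_tens, g3, pow_succ]
      exact mul_le_mul_of_nonneg_right h4 (by positivity)
    · rw [ft_tens, abs_mul, g4, mul_one]; exact h5 _
    · simp only [ft_add, ft_tens, ft_mul, ft_dl]
      rw [avg_split (fun a b => ft sh a * ft s b * p (ft zh a * 1 + 1 * (h / 2 * (1 + ft s b))))]
      have : ∀ a, (avg fun b => ft sh a * ft s b * p (ft zh a * 1 + 1 * (h / 2 * (1 + ft s b)))) =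
          1 / 2 * (ft sh a * fwdDiff h p (ft zh a)) := by
        intro a
        rw [g5 (fun y => ft sh a * y * p (ft zh a * 1 + 1 * (h / 2 * (1 + y)))), fwdDiff]
        have e1 : ft zh a * 1 + 1 * (h / 2 * (1 + 1)) = ft zh a + h := by ring
        have e2 : ft zh a * 1 + 1 * (h / 2 * (1 + -1)) = ft zh a := by ring
        rw [e1, e2]
        ring
      simp only [this]
      rw [avg_mul_left, h6, Function.iterate_succ_apply]
      ring

end TestsAux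

open TestsAux in
theorem tests (δ r : ℕ) (h : ℝ) (hh : 0 ≤ h) (hA : r * h * 2 ^ δ ≤ 1) :
    ∃ (T : Type) (_ : Fintype T) (_ : DecidableEq T) (t0 : T)
      (π : V T × ZMod 2 → ℝ) (sh : V T → ℝ),
      (∀ x, 0 ≤ π x) ∧ ∑ x, π x = 1 ∧
      (∀ τ, sh τ ≠ 0 → τ t0 = 1) ∧ (∀ τ, |sh τ| ≤ (1 / 2 ^ δ) ^ r) ∧ ∑ τ, sh τ ^ 2 ≤ 1 ∧
      ∑ τ, |sh τ| ≤ (2 ^ δ) ^ r ∧ (∀ u : V T, |∑ τ, sh τ * e (τ ⬝ᵥ u)| ≤ 1) ∧
      ∀ p : ℝ → ℝ,
        (avg fun u : V T => (∑ τ, sh τ * e (τ ⬝ᵥ u)) * p (∑ x, π x * e (x.2 + x.1 ⬝ᵥ u))) =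
          (1 / 2) ^ r * (fwdDiff h)^[r] (fun y => (p y - p (-y)) / 2) 0 := by
  obtain ⟨T, _, _, zh, sh, h1, h2, h3, h4, h5, h6⟩ := core δ h hh r
  have hz : ∑ τ, |tens bit zh τ| ≤ 1 := by
    rw [sum_abs_tens, sum_abs_bit, one_mul]; exact h1.trans hA
  refine ⟨Unit ⊕ T, inferInstance, inferInstance, Sum.inl (),
    fun x => max (e x.2 * tens bit zh x.1) 0 + dl x.1 * ((1 - ∑ τ, |tens bit zh τ|) / 2),
    tens bit sh, fun x => ?_, ?_, fun τ hτ => ?_, fun τ => ?_, ?_, ?_, fun u => ?_, fun p => ?_⟩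
  · refine add_nonneg (le_max_right _ _) (mul_nonneg ?_ (by linarith))
    unfold dl; split_ifs <;> simp
  · have k1 : ∀ a : ℝ, max a 0 + max (-a) 0 = |a| := fun a => by
      rcases le_total 0 a with ha | ha
      · rw [max_eq_left ha, max_eq_right (by linarith), abs_of_nonneg ha, add_zero]
      · rw [max_eq_right ha, max_eq_left (by linarith), abs_of_nonpos ha, zero_add]
    have k2 : ∀ τ : V (Unit ⊕ T), ∑ b : ZMod 2, (max (e b * tens bit zh τ) 0 +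
        dl τ * ((1 - ∑ τ, |tens bit zh τ|) / 2)) =
        |tens bit zh τ| + dl τ * (1 - ∑ τ, |tens bit zh τ|) := fun τ => by
      rw [sum_zmod2, e_zero, e_one, one_mul, neg_one_mul, ← k1]; ring
    rw [Fintype.sum_prod_type]
    simp only [k2]
    rw [sum_add_distrib, ← sum_mul]
    simp [dl]
  · by_contra hx
    apply hτ
    rw [tens, bit, if_neg (show ¬ (τ ∘ Sum.inl) () = 1 from hx), zero_mul]
  · simpa using abs_tens_le abs_bit_le h2 τ
  · rw [sum_sq_tens, sum_sq_bit, one_mul]; exact h3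
  · rw [sum_abs_tens, sum_abs_bit, one_mul]; exact h4
  · change |ft (tens bit sh) u| ≤ 1
    rw [ft_tens, abs_mul, abs_ft_bit, one_mul]; exact h5 _
  · have k1 : ∀ a : ℝ, max a 0 - max (-a) 0 = a := fun a => by
      rcases le_total 0 a with ha | ha
      · rw [max_eq_left ha, max_eq_right (by linarith), sub_zero]
      · rw [max_eq_right ha, max_eq_left (by linarith), zero_sub, neg_neg]
    have k2 : ∀ u : V (Unit ⊕ T), ∑ x : V (Unit ⊕ T) × ZMod 2,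
        (max (e x.2 * tens bit zh x.1) 0 + dl x.1 * ((1 - ∑ τ, |tens bit zh τ|) / 2)) *
          e (x.2 + x.1 ⬝ᵥ u) = ft (tens bit zh) u := fun u => by
      rw [Fintype.sum_prod_type, ft]
      refine sum_congr rfl fun τ _ => ?_
      rw [sum_zmod2]
      simp only [e_add, e_zero, e_one, one_mul, neg_mul]
      conv_rhs => rw [← k1 (tens bit zh τ)]
      ring
    simp only [k2]
    change (avg fun u => ft (tens bit sh) u * p (ft (tens bit zh) u)) = _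
    simp only [ft_tens]
    rw [avg_split (fun a b => ft bit a * ft sh b * p (ft bit a * ft zh b)), avg_comm, ← h6]
    congr 1
    funext b
    rw [avg_unit, ft_bit_zero, ft_bit_one, one_mul, one_mul, neg_one_mul, neg_one_mul]
    ring

end Crest.Agent.R118
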