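import Crest.Agent.R118.StageA
import Crest.Agent.R118.Diff
import Crest.Agent.R118.Tests
import Crest.Agent.R118.StageB

/-! Row 118: the finite core of the argument. -/

set_option autoImplicit false

namespace Crest.Agent.R118

open Finset

universe u


section main
variable {W : Type*} [NormedAddCommGroup W] [NormedSpace ℝ W]
  {M K K' : Type} [Fintype M] [DecidableEq M] [Fintype K] [DecidableEq K]
  [Fintype K'] [DecidableEq K']

lemma main_ineq {Adm : (W →ₗ[ℝ] ℝ) → ℝ → Prop} (hneg : ∀ l s, Adm l s → Adm (-l) s)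
    (hpos : ∀ l s, Adm l s → 0 ≤ s)
    (f : (K → V M × V K × V K') → V K → W →ₗ[ℝ] ℝ) (s : (K → V M × V K × V K') → V K → ℝ)
    (hf : ∀ a w, Adm (f a w) (s a w)) {Θ Θ' L₁ L₂ : ℝ} (hΘ : 0 < Θ) (hΘ' : 0 < Θ')
    (hs : ∀ a, avg (s a) ≤ Θ ^ 2) (G : V M × V K × V K' → W)
    (y : (K' → V M × V K × V K') → V K' → W)
    (hy : ∀ b j, (avg fun w => e (w j) • y b w) = G (b j))
    (hy2 : ∀ b, (avg fun w => ‖y b w‖ ^ 2) ≤ Θ' ^ 2)
    (hL₁ : 0 ≤ L₁) (hL₂ : 0 ≤ L₂) (H1 : HB Adm M L₁) (H2 : HB Adm (M ⊕ M) L₂)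
    {T : Type} [Fintype T] [DecidableEq T] (t0 : T) (π : V T × ZMod 2 → ℝ) (sh : V T → ℝ)
    {κ Ξ : ℝ} (hπ0 : ∀ x, 0 ≤ π x) (hπ1 : ∑ x, π x = 1)
    (hodd : ∀ τ, sh τ ≠ 0 → τ t0 = 1) (hκ : ∀ τ, |sh τ| ≤ κ) (h2 : ∑ τ, sh τ ^ 2 ≤ 1)
    (h1 : ∑ τ, |sh τ| ≤ Ξ) (hσ : ∀ u : V T, |∑ τ, sh τ * e (τ ⬝ᵥ u)| ≤ 1)
    (hκk : (Fintype.card K' : ℝ) ^ 4 * κ ≤ 1) :
    (avg fun u : V T => (∑ τ, sh τ * e (τ ⬝ᵥ u)) *
        pf (fun v => ∑ j, hfun f G j v) (∑ x, π x * e (x.2 + x.1 ⬝ᵥ u))) ≤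
      (2 * L₁ + L₂ * (1 + Ξ) ^ Fintype.card K') * (Θ * Θ') := by
  set Λ := 2 * L₁ + L₂ * (1 + Ξ) ^ Fintype.card K' with hΛ
  have hΞ : 0 ≤ Ξ := (sum_nonneg fun _ _ => abs_nonneg _).trans h1
  have hΛ0 : 0 ≤ Λ := by positivity
  have hP : ∀ P : K → V T × ZMod 2, (avg fun u : V T => (∑ τ, sh τ * e (τ ⬝ᵥ u)) *
      ∑ j, hfun f G j fun i => (P i).2 + (P i).1 ⬝ᵥ u) ≤ Λ * (Θ * Θ') := by
    intro P
    simp only [mul_sum _ (fun j => hfun f G j _), avg_sum]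
    simp only [← claim1 f G P (fun u => ∑ τ, sh τ * e (τ ⬝ᵥ u)), ← avg_sum]
    have hB : ∀ (r : K → V M × V K') (φ : V K),
        ∑ j, (avg fun c : T → V M => avg fun ψ : T → V K' => avg fun d : V M =>
          (∑ τ, sh τ * e (τ ⬝ᵥ fun t => c t ⬝ᵥ d + ψ t j)) *
            f (tup (r + shf P c ψ)) (fun i => (P i).2 + φ i) (G (bpt r φ d j))) ≤
        Λ * (Θ' / Θ * (avg fun c : T → V M => avg fun ψ : T → V K' =>
          s (tup (r + shf P c ψ)) fun i => (P i).2 + φ i) + Θ * Θ') / 2 := by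
      intro r φ
      have := stageB Adm hneg hpos M K' T t0 sh κ Ξ hodd hκ h2 h1 hσ hκk
        (fun c ψ => f (tup (r + shf P c ψ)) fun i => (P i).2 + φ i)
        (fun c ψ => s (tup (r + shf P c ψ)) fun i => (P i).2 + φ i) (fun c ψ => hf _ _)
        (fun d j => G (bpt r φ d j)) (fun d => y fun j => bpt r φ (d j) j)
        (fun d j => hy _ j) L₁ L₂ (Θ' / Θ) hL₁ hL₂ (by positivity) H1 H2
      refine this.trans ?_
      have h3 : (avg fun d : K' → V M => avg fun w => ‖y (fun j => bpt r φ (d j) j) w‖ ^ 2) ≤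
          Θ' ^ 2 := avg_le_of_le fun d => hy2 _
      have h4 : (Θ' / Θ)⁻¹ * (avg fun d : K' → V M =>
          avg fun w => ‖y (fun j => bpt r φ (d j) j) w‖ ^ 2) ≤ Θ * Θ' := by
        refine (mul_le_mul_of_nonneg_left h3 (by positivity)).trans (le_of_eq ?_)
        field_simp
      gcongr
    simp only [avg_sum] at hB ⊢
    simp only [← avg_sum univ (α := V K), ← avg_sum univ (α := K → V M × V K')]
    refine (avg_mono fun r => avg_mono fun φ => hB r φ).trans ?_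
    simp only [avg_div, avg_mul_left, avg_add, avg_const]
    have h5 := mul_le_mul_of_nonneg_left (size_avg s hs P) (by positivity : 0 ≤ Θ' / Θ)
    have h6 : Θ' / Θ * Θ ^ 2 = Θ * Θ' := by field_simp
    rw [h6] at h5
    have := mul_le_mul_of_nonneg_left h5 hΛ0
    linarith
  have hw : ∑ P : K → V T × ZMod 2, ∏ i, π (P i) = 1 := by
    have := Finset.prod_univ_sum (fun _ : K => (univ : Finset (V T × ZMod 2))) fun _ x => π x
    rw [Fintype.piFinset_univ] at this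
    rw [← this]; simp [hπ1]
  calc _ = ∑ P : K → V T × ZMod 2, (∏ i, π (P i)) *
        avg fun u : V T => (∑ τ, sh τ * e (τ ⬝ᵥ u)) *
          ∑ j, hfun f G j fun i => (P i).2 + (P i).1 ⬝ᵥ u := by
        simp only [← avg_mul_left, ← avg_sum]
        congr 1; funext u
        rw [← mixture π hπ1 (fun x => x.2 + x.1 ⬝ᵥ u), mul_sum]
        exact sum_congr rfl fun P _ => by ring
    _ ≤ ∑ P : K → V T × ZMod 2, (∏ i, π (P i)) * (Λ * (Θ * Θ')) :=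
        sum_le_sum fun P _ => mul_le_mul_of_nonneg_left (hP P) (prod_nonneg fun i _ => hπ0 _)
    _ = _ := by rw [← sum_mul, hw, one_mul]

end main

theorem core (q r : ℕ) (hq : 1 ≤ q) (hr : 1 ≤ r) (C D : ℝ) (hC : 0 < C) (hD : 0 < D) :
    ∃ (g g' : ℕ) (mass : ℝ), 1 ≤ g ∧ 1 ≤ g' ∧ 0 < mass ∧
      ∀ {W : Type u} [NormedAddCommGroup W] [NormedSpace ℝ W]
        (Adm : (W →ₗ[ℝ] ℝ) → ℝ → Prop) (_ : ∀ l s, Adm l s → Adm (-l) s)
        (_ : ∀ l s, Adm l s → 0 ≤ s)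
        (M : Type) [Fintype M] [DecidableEq M]
        (F : V M × V (Fin (g ^ r)) × V (Fin (g' ^ q)) → W →ₗ[ℝ] ℝ)
        (G : V M × V (Fin (g ^ r)) × V (Fin (g' ^ q)) → W) (β L₂ : ℝ) (_ : 0 < β)
        (_ : ∀ a b, F a (G b) = β * e (a.1 ⬝ᵥ b.1 + a.2.1 ⬝ᵥ b.2.1 + a.2.2 ⬝ᵥ b.2.2))
        (_ : ∀ b, ‖G b‖ ≤ 1)
        (_ : ∀ a : Fin (g ^ r) → V M × V (Fin (g ^ r)) × V (Fin (g' ^ q)),
          ∃ (f : V (Fin (g ^ r)) → W →ₗ[ℝ] ℝ) (s : V (Fin (g ^ r)) → ℝ),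
            (∀ w, Adm (f w) (s w)) ∧ (∀ i, (avg fun w => e (w i) • f w) = F (a i)) ∧
            avg s ≤ (D * (g : ℝ) ^ r / g) ^ 2)
        (_ : ∀ b : Fin (g' ^ q) → V M × V (Fin (g ^ r)) × V (Fin (g' ^ q)),
          ∃ y : V (Fin (g' ^ q)) → W, (∀ j, (avg fun w => e (w j) • y w) = G (b j)) ∧
            (avg fun w => ‖y w‖ ^ 2) ≤ (C * (g' : ℝ) ^ q / g') ^ 2)
        (_ : HB Adm M (8 * β)) (_ : HB Adm (M ⊕ M) L₂) (_ : 0 ≤ L₂) (_ : L₂ * mass ≤ β),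
        False := by
  obtain ⟨L, hLdef⟩ : ∃ L : ℕ, L = 4 * q * (2 * r + 1) := ⟨_, rfl⟩
  have hL2 : 2 ≤ L := by nlinarith
  obtain ⟨B, hB, hdiff⟩ := diff_lemma L hL2
  obtain ⟨A, hA⟩ := exists_nat_ge (64 * L * B * D + 2 * L + 16 * D)
  obtain ⟨δ, hδ⟩ := pow_unbounded_of_one_lt (9 * C * 4 ^ L * (A : ℝ) ^ (2 * r)) one_lt_two
  have hLpos : (2 : ℝ) ≤ L := by exact_mod_cast hL2
  have hLBD : 0 < 64 * (L : ℝ) * B * D := by positivity
  have hA1 : (1 : ℝ) ≤ A := by linarith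
  have hA1' : 1 ≤ A := by exact_mod_cast hA1
  have h2δ : (1 : ℝ) ≤ 2 ^ δ := one_le_pow₀ one_le_two
  obtain ⟨g, hg⟩ : ∃ g : ℕ, g = A * 2 ^ δ := ⟨_, rfl⟩
  obtain ⟨g', hg'⟩ : ∃ g' : ℕ, g' = 2 ^ (δ * (2 * r + 1)) := ⟨_, rfl⟩
  refine ⟨g, g', (1 + (2 ^ δ) ^ (2 * L)) ^ (g' ^ q),
    hg ▸ Nat.one_le_iff_ne_zero.mpr (by positivity), hg' ▸ Nat.one_le_two_pow, by positivity, ?_⟩
  intro W _ _ Adm hneg hpos M _ _ F G β L₂ hβ hFG hG hLA hLB H1 H2 hL₂ hmass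
  choose f s hf hfl hs using hLA
  choose y hy hy2 using hLB
  have hgR : (g : ℝ) = A * 2 ^ δ := by rw [hg]; push_cast; ring
  have hg'R : (g' : ℝ) = 2 ^ δ * (2 ^ δ) ^ (2 * r) := by rw [hg']; push_cast; ring
  have hg1 : (1 : ℝ) ≤ g := by rw [hgR]; nlinarith
  have hg'0 : (0 : ℝ) < g' := by rw [hg'R]; positivity
  set k : ℝ := (g : ℝ) ^ r with hk
  set k' : ℝ := (g' : ℝ) ^ q with hk'
  have hgk : (g : ℝ) ≤ k := le_self_pow₀ hg1 (by omega)
  have hk1 : 1 ≤ k := hg1.trans hgk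
  have hk'0 : 0 < k' := by positivity
  have hcK : (Fintype.card (Fin (g ^ r)) : ℝ) = k := by simp [hk]
  have hcK' : (Fintype.card (Fin (g' ^ q)) : ℝ) = k' := by simp [hk']
  set Θ : ℝ := D * k / g with hΘ
  set Θ' : ℝ := C * k' / g' with hΘ'
  have hΘ0 : 0 < Θ := by positivity
  have hΘ'0 : 0 < Θ' := by positivity
  set hS : V (Fin (g ^ r)) → ℝ := fun v => ∑ j, hfun f G j v with hSdef
  set b : ℝ := k' * (8 * β * Θ) with hb
  have hb0 : 0 < b := by positivity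
  have hodd : ∀ v, |oddP hS v| ≤ b := fun v => by
    have : oddP hS v = ∑ j, oddP (hfun f G j) v := by
      simp only [oddP, hSdef, ← sum_div, sum_sub_distrib]
    rw [this]
    refine (abs_sum_le_sum_abs _ _).trans ?_
    have := sum_le_card_nsmul univ (fun j => |oddP (hfun f G j) v|) (8 * β * Θ) fun j _ =>
      abs_oddP_hfun_le hneg f s hf hΘ0 hs G hG (by positivity) H1 j v
    rwa [card_univ, nsmul_eq_mul, hcK'] at this
  have hlin : ∀ i, (avg fun v => e (v i) * oddP hS v) = k' * β := fun i => by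
    rw [avg_e_oddP]
    simp only [hSdef, mul_sum, avg_sum, hfun_lin F G β hFG f hfl, sum_const, card_univ,
      nsmul_eq_mul, hcK']
  set p : ℝ → ℝ := fun t => pf (oddP hS) t / b with hp
  set H : ℝ := 1 / (2 * L * 2 ^ δ) with hH
  have hH0 : 0 < H := by positivity
  have hH1 : L * H ≤ 1 := by
    rw [hH, mul_one_div, div_le_one (by positivity)]; nlinarith
  have hH2 : H ≤ 1 := by nlinarith
  have hkH : 1 ≤ k ^ 2 * H := by
    rw [hH, mul_one_div, one_le_div (by positivity)]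
    have : 2 * L * 2 ^ δ ≤ (g : ℝ) := by rw [hgR]; gcongr; linarith
    nlinarith
  obtain ⟨n, hn1, hn2⟩ := exists_nat_pow_near hkH one_lt_two
  set h : ℝ := H / 2 ^ (n + 1) with hh
  have hh0 : 0 < h := by positivity
  have hh1 : k ^ 2 * h ≤ 1 := by
    rw [hh, ← mul_div_assoc, div_le_one (by positivity)]; exact hn2.le
  have hh2 : 1 / 2 ≤ k ^ 2 * h := by
    rw [hh, ← mul_div_assoc, le_div_iff₀ (by positivity), pow_succ]; linarith
  have hlow : g / (16 * D) * h ≤ p h := by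
    have h1 := pf_lower (h := oddP hS) (y := h) hodd hh0.le
      (by rw [hcK]; nlinarith) (avg_oddP hS) hlin
    rw [hcK] at h1
    rw [hp, le_div_iff₀ hb0]
    refine le_trans ?_ h1
    have e1 : k * (k' * β) * h = g / (8 * D) * h * b := by
      rw [hb, hΘ]; field_simp
    have e2 : (k * h) ^ 2 ≤ g / (16 * D) * h := by
      have : 1 ≤ g / (16 * D) := by
        rw [one_le_div (by positivity), hgR]; nlinarith
      nlinarith
    have e3 : g / (8 * D) * h = 2 * (g / (16 * D) * h) := by field_simp; ring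
    rw [e1, e3]
    nlinarith
  have hp0 : p 0 = 0 := by simp [hp, pf, avg_oddP]
  have hpb : ∀ t, 0 ≤ t → t ≤ L * H → |p t| ≤ 1 := fun t ht ht' => by
    rw [hp]
    simp only [abs_div, abs_of_pos hb0]
    rw [div_le_one hb0]
    exact abs_pf_le hodd (by rw [abs_of_nonneg ht]; linarith)
  obtain ⟨r', i, hr1, hr2, -, hbig⟩ : ∃ r' i : ℕ, L ≤ r' ∧ r' ≤ 2 * L ∧ i ≤ n + 1 ∧
      1 / (4 * k ^ 2) < |(fwdDiff (H / 2 ^ i))^[r'] p 0| := by
    by_contra hcon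
    push Not at hcon
    have h1 := hdiff p H (1 / (4 * k ^ 2)) (n + 1) hH0 (by positivity) hp0 hpb hcon
    have h2 : 1 / 2 ^ (n + 1) = h / H := by rw [hh]; field_simp
    have h3 : B ≤ g / (16 * D) * H / 2 := by
      have : g / (16 * D) * H / 2 = A / (64 * L * D) := by rw [hgR, hH]; field_simp; ring
      rw [this, le_div_iff₀ (by positivity)]; nlinarith
    have h4 : 1 / (4 * k ^ 2) < h / H := by
      rw [div_lt_div_iff₀ (by positivity) hH0]; nlinarith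
    have h5 : B * (1 / (4 * k ^ 2) + h / H) < B * (2 * (h / H)) := by gcongr; linarith
    have h6 : B * (2 * (h / H)) ≤ g / (16 * D) * H / 2 * (2 * (h / H)) := by gcongr
    have h7 : g / (16 * D) * H / 2 * (2 * (h / H)) = g / (16 * D) * h := by field_simp
    rw [h2] at h1
    linarith [le_abs_self (p h)]
  obtain ⟨T, _, _, t0, π, sh, hπ0, hπ1, hsh0, hκ, hsh2, hsh1, hσ, hid⟩ :=
    tests δ r' (H / 2 ^ i) (by positivity) (by
      have h1 : H / 2 ^ i ≤ H := div_le_self hH0.le (one_le_pow₀ one_le_two)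
      have h2 : (r' : ℝ) ≤ 2 * L := by exact_mod_cast hr2
      calc (r' : ℝ) * (H / 2 ^ i) * 2 ^ δ ≤ 2 * L * H * 2 ^ δ := by gcongr
        _ = 1 := by rw [hH]; field_simp)
  have hκk : (Fintype.card (Fin (g' ^ q)) : ℝ) ^ 4 * (1 / 2 ^ δ) ^ r' ≤ 1 := by
    have h1 : ((1 : ℝ) / 2 ^ δ) ^ r' ≤ (1 / 2 ^ δ) ^ L :=
      pow_le_pow_of_le_one (by positivity) (by rw [div_le_one (by positivity)]; exact h2δ) hr1
    have h2 : k' ^ 4 = (2 ^ δ) ^ L := by rw [hk', hg'R, hLdef]; ring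
    rw [hcK', h2]
    calc _ ≤ ((2 : ℝ) ^ δ) ^ L * (1 / 2 ^ δ) ^ L := by gcongr
      _ = 1 := by rw [← mul_pow]; simp
  have hΞ : ∑ τ, |sh τ| ≤ (2 ^ δ) ^ (2 * L) := hsh1.trans (pow_le_pow_right₀ h2δ hr2)
  have hval : ∀ x : ZMod 2, e x * (b * ((1 / 2) ^ r' * (fwdDiff (H / 2 ^ i))^[r'] p 0)) ≤
      17 * β * (Θ * Θ') := by
    intro x
    have h1 := main_ineq hneg hpos f s hf hΘ0 hΘ'0 hs G y hy hy2 (by positivity) hL₂ H1 H2 t0 π
      (fun τ => e x * sh τ) hπ0 hπ1 (fun τ hτ => hsh0 τ (right_ne_zero_of_mul hτ))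
      (fun τ => by rw [abs_mul, abs_e, one_mul]; exact hκ τ)
      (by simpa only [mul_pow, e_sq, one_mul] using hsh2)
      (by simpa only [abs_mul, abs_e, one_mul] using hΞ)
      (fun u => by simpa only [mul_assoc, ← mul_sum, abs_mul, abs_e, one_mul] using hσ u) hκk
    have h2 := hid fun t => pf hS t / b
    have h3 : (fun t => (pf hS t / b - pf hS (-t) / b) / 2) = p := by
      funext t; rw [hp]; simp only [← pf_odd]; ring
    rw [h3] at h2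
    rw [← h2, ← avg_mul_left, ← avg_mul_left]
    refine le_trans (le_of_eq ?_) (h1.trans ?_)
    · congr 1; funext u
      simp only [mul_assoc, ← mul_sum]
      field_simp
      rfl
    · rw [Fintype.card_fin]
      gcongr
      linarith
  have habs : b * ((1 / 2) ^ r' * |(fwdDiff (H / 2 ^ i))^[r'] p 0|) ≤ 17 * β * (Θ * Θ') := by
    have h0 := hval 0
    have h1 := hval 1
    simp only [e_zero, e_one, one_mul, neg_mul] at h0 h1
    rcases abs_cases ((fwdDiff (H / 2 ^ i))^[r'] p 0) with h | h <;> rw [h.1] <;> linarith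
  have h4L : ((1 : ℝ) / 4) ^ L ≤ (1 / 2) ^ r' := by
    have : ((1 : ℝ) / 4) ^ L = (1 / 2) ^ (2 * L) := by rw [pow_mul (1 / 2 : ℝ) 2 L]; norm_num
    rw [this]
    exact pow_le_pow_of_le_one (by norm_num) (by norm_num) hr2
  have hfin : b * ((1 / 4) ^ L * (1 / (4 * k ^ 2))) ≤ 17 * β * (Θ * Θ') :=
    le_trans (by gcongr) habs
  have hk2 : k ^ 2 = (A : ℝ) ^ (2 * r) * (2 ^ δ) ^ (2 * r) := by rw [hk, hgR]; ring
  have e1 : b * ((1 / 4) ^ L * (1 / (4 * k ^ 2))) =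
      (β * Θ * k' / (g' * 4 ^ L * (A : ℝ) ^ (2 * r))) * (2 * 2 ^ δ) := by
    rw [hb, hk2, hg'R, one_div_pow]; field_simp; ring
  have e2 : 17 * β * (Θ * Θ') =
      (β * Θ * k' / (g' * 4 ^ L * (A : ℝ) ^ (2 * r))) * (17 * C * 4 ^ L * (A : ℝ) ^ (2 * r)) := by
    rw [hΘ']; field_simp
  rw [e1, e2] at hfin
  have := le_of_mul_le_mul_left hfin (by positivity)
  have h5 : 0 < C * 4 ^ L * (A : ℝ) ^ (2 * r) := by positivity
  linarith

end Crest.Agent.R118
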