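import Crest.Agent.R118.Basic

/-! Row 118: the dual norm of a finite `ℓ₂`-sum. -/

set_option autoImplicit false

namespace Crest.Agent.R118

open Finset

lemma exists_near_norming {X : Type*} [NormedAddCommGroup X] [NormedSpace ℝ X]
    (ξ : StrongDual ℝ X) {t : ℝ} (ht : t < 1) : ∃ v : X, ‖v‖ ≤ 1 ∧ t * ‖ξ‖ ≤ ξ v := by
  rcases (norm_nonneg ξ).eq_or_lt with h0 | h0
  · exact ⟨0, by simp, by simp [← h0]⟩
  · obtain ⟨v, hv, hv'⟩ := ξ.exists_lt_apply_of_lt_opNorm (r := t * ‖ξ‖) (by nlinarith)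
    rcases le_total 0 (ξ v) with h | h
    · exact ⟨v, hv.le, by rw [Real.norm_eq_abs, abs_of_nonneg h] at hv'; exact hv'.le⟩
    · refine ⟨-v, by simpa using hv.le, ?_⟩
      rw [Real.norm_eq_abs, abs_of_nonpos h] at hv'
      simpa using hv'.le

/-- If `f ↦ ∑ ξ ω (f ω)` is bounded by `M` for the `ℓ₂`-norm then `∑ ‖ξ ω‖² ≤ M²`. -/
theorem dual_l2 {Ω : Type*} [Fintype Ω] {X : Type*} [NormedAddCommGroup X] [NormedSpace ℝ X]
    (ξ : Ω → StrongDual ℝ X) (M : ℝ) (hM : 0 ≤ M)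
    (h : ∀ f : Ω → X, ∑ ω, ξ ω (f ω) ≤ M * √(∑ ω, ‖f ω‖ ^ 2)) :
    ∑ ω, ‖ξ ω‖ ^ 2 ≤ M ^ 2 := by
  set S := ∑ ω, ‖ξ ω‖ ^ 2 with hS
  have hS0 : 0 ≤ S := sum_nonneg fun _ _ => sq_nonneg _
  have key : ∀ t : ℝ, t < 1 → t * S ≤ M * √S := by
    intro t ht
    choose v hv hv' using fun ω => exists_near_norming (ξ ω) ht
    have h1 := h fun ω => ‖ξ ω‖ • v ω
    have h2 : t * S ≤ ∑ ω, ξ ω (‖ξ ω‖ • v ω) := by
      rw [hS, mul_sum]
      refine sum_le_sum fun ω _ => ?_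
      rw [map_smul, smul_eq_mul]
      have := mul_le_mul_of_nonneg_left (hv' ω) (norm_nonneg (ξ ω))
      nlinarith
    have h3 : √(∑ ω, ‖‖ξ ω‖ • v ω‖ ^ 2) ≤ √S := by
      refine Real.sqrt_le_sqrt (sum_le_sum fun ω _ => ?_)
      rw [norm_smul, norm_norm]
      have := mul_le_of_le_one_right (norm_nonneg (ξ ω)) (hv ω)
      gcongr
    exact h2.trans (h1.trans (mul_le_mul_of_nonneg_left h3 hM))
  have h1 : S ≤ M * √S := by
    refine le_of_forall_lt_imp_le_of_dense fun c hc => ?_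
    rcases hS0.eq_or_lt with h0 | h0
    · rw [← h0] at hc ⊢; simpa using hc.le
    · have := key (c / S) ((div_lt_one h0).2 hc)
      rwa [div_mul_cancel₀ _ h0.ne'] at this
  have h2 := Real.sq_sqrt hS0
  have h3 := Real.sqrt_nonneg S
  rcases h3.eq_or_lt with h0 | h0
  · rw [← h2, ← h0]; simpa using sq_nonneg M
  · have : √S ≤ M := by
      by_contra hc
      push Not at hc
      nlinarith
    rw [← h2]; gcongr

end Crest.Agent.R118
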