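import Crest.Agent.R118.Basic
import Crest.Prelude.Def_Rademacher

/-! Row 118: auxiliary lemmas for the extremal scale argument. -/

set_option autoImplicit false

namespace Crest.Agent.R118.ExtremalAux

open Finset Crest.AnalysisR

universe u

variable {X : Type u} [NormedAddCommGroup X] [NormedSpace ℝ X]

/-- The Hadamard pairing of two families. -/
noncomputable def pr {ι : Type} [Fintype ι] [DecidableEq ι] (F : V ι → X)
    (G : V ι → StrongDual ℝ X) : ℝ :=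
  avg fun a => avg fun b => e (a ⬝ᵥ b) * G b (F a)

/-- Arithmetic mean of the two squared norms. -/
noncomputable def am {ι : Type} [Fintype ι] [DecidableEq ι] (F : V ι → X)
    (G : V ι → StrongDual ℝ X) : ℝ :=
  ((avg fun a => ‖F a‖ ^ 2) + avg fun b => ‖G b‖ ^ 2) / 2

section
variable {ι : Type} [Fintype ι] [DecidableEq ι]

lemma am_nonneg (F : V ι → X) (G : V ι → StrongDual ℝ X) : 0 ≤ am F G :=
  div_nonneg (add_nonneg (avg_nonneg fun _ => sq_nonneg _) (avg_nonneg fun _ => sq_nonneg _))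
    zero_le_two

lemma abs_pr_le (F H : V ι → X) (G : V ι → StrongDual ℝ X) (c : ℝ) (hc : 0 ≤ c)
    (h : ∀ a, ‖H a‖ ≤ c * ‖F a‖) : |pr H G| ≤ c * am F G := by
  have h1 : ∀ a b, |e (a ⬝ᵥ b) * G b (H a)| ≤ c * ((‖F a‖ ^ 2 + ‖G b‖ ^ 2) / 2) := by
    intro a b
    rw [abs_mul, abs_e, one_mul]
    have h2 : |G b (H a)| ≤ ‖G b‖ * ‖H a‖ := (G b).le_opNorm (H a)
    have h3 := mul_le_mul_of_nonneg_left (h a) (norm_nonneg (G b))
    nlinarith [mul_nonneg hc (sq_nonneg (‖F a‖ - ‖G b‖))]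
  refine (abs_avg_le _).trans ((avg_mono fun a =>
    (abs_avg_le _).trans (avg_mono fun b => h1 a b)).trans (le_of_eq ?_))
  simp only [avg_mul_left, avg_div, avg_add, avg_const, am]

lemma pr_sub (F H : V ι → X) (G : V ι → StrongDual ℝ X) :
    pr (fun a => F a - H a) G = pr F G - pr H G := by
  simp only [pr, map_sub, mul_sub, avg_sub]

lemma pr_smul (F : V ι → X) (G : V ι → StrongDual ℝ X) (c : ℝ) :
    pr F (fun b => c • G b) = c * pr F G := by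
  simp only [pr, ← avg_mul_left]
  congr 1; funext a; congr 1; funext b
  simp only [smul_apply, smul_eq_mul]; ring

lemma pr_sq_le (F : V ι → X) (G : V ι → StrongDual ℝ X) :
    pr F G ^ 2 ≤ (avg fun a => ‖F a‖ ^ 2) * avg fun b => ‖G b‖ ^ 2 := by
  have h1 : |pr F G| ≤ (avg fun a => ‖F a‖ * 1) * avg fun b => ‖G b‖ * 1 := by
    refine (abs_avg_le _).trans ((avg_mono fun a =>
      (abs_avg_le _).trans (avg_mono (g := fun b => ‖F a‖ * ‖G b‖) fun b => ?_)).trans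
      (le_of_eq ?_))
    · rw [abs_mul, abs_e, one_mul, mul_comm]; exact (G b).le_opNorm (F a)
    · simp only [avg_mul_left, avg_mul_right, mul_one]
  have h2 := avg_mul_sq_le (fun a => ‖F a‖) (fun _ => (1 : ℝ))
  have h3 := avg_mul_sq_le (fun a => ‖G a‖) (fun _ => (1 : ℝ))
  simp only [one_pow, avg_const, mul_one] at h1 h2 h3
  calc pr F G ^ 2 = |pr F G| ^ 2 := (sq_abs _).symm
    _ ≤ ((avg fun a => ‖F a‖) * avg fun b => ‖G b‖) ^ 2 := by gcongr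
    _ ≤ _ := by
      rw [mul_pow]
      exact mul_le_mul h2 h3 (sq_nonneg _) (avg_nonneg fun _ => sq_nonneg _)

end

omit [NormedSpace ℝ X] in
lemma exists_chain {A K B : Type} [Finite A] [Finite K] [Finite B] (F0 : A → X)
    (lift : (K → X) → B → X) :
    ∃ M : ℕ → Set X, (∀ j, (M j).Finite) ∧ (∀ j x, x ∈ M j → -x ∈ M j) ∧ (∀ a, F0 a ∈ M 0) ∧
      ∀ j (x : K → X), (∀ i, x i ∈ M j) → ∀ w, lift x w ∈ M (j + 1) := by
  let nx : Set X → Set X := fun s => {y | ∃ x : K → X, (∀ i, x i ∈ s) ∧ ∃ w, lift x w = y}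
  have hnx : ∀ s : Set X, s.Finite → (nx s).Finite := by
    intro s hs
    have h1 : {x : K → X | ∀ i, x i ∈ s}.Finite := Set.Finite.pi' fun _ => hs
    refine (h1.biUnion fun x _ => Set.finite_range (lift x)).subset ?_
    rintro y ⟨x, hx, w, rfl⟩
    exact Set.mem_biUnion hx ⟨w, rfl⟩
  let M : ℕ → Set X := fun j =>
    Nat.rec (Set.range F0 ∪ -Set.range F0) (fun _ s => nx s ∪ -nx s) j
  refine ⟨M, fun j => ?_, fun j x hx => ?_, fun a => Or.inl ⟨a, rfl⟩,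
    fun j x hx w => Or.inl ⟨x, hx, w, rfl⟩⟩
  · induction j with
    | zero => exact (Set.finite_range F0).union (Set.finite_range F0).neg
    | succ j ih => exact (hnx _ ih).union (hnx _ ih).neg
  · cases j with
    | zero =>
      rcases hx with hx | hx
      · exact Or.inr (by simpa using hx)
      · exact Or.inl hx
    | succ j =>
      rcases hx with hx | hx
      · exact Or.inr (Set.mem_neg.2 (by rwa [neg_neg]))
      · exact Or.inl hx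

lemma exists_approx (hAP : HasApproximationProperty X) (M : ℕ → Set X) (hM : ∀ j, (M j).Finite) :
    ∃ S : X →L[ℝ] X, FiniteDimensional ℝ (LinearMap.range (S : X →ₗ[ℝ] X)) ∧
      ∀ j x, x ∈ M j → ‖S x - x‖ ≤ 2 ^ j / 4 * ‖x‖ := by
  let f : {p : ℕ × X // p.2 ∈ M p.1} → X := fun p => (((2 : ℝ) ^ p.1.1)⁻¹ * ‖p.1.2‖⁻¹) • p.1.2
  have hf : ∀ p, ‖f p‖ ≤ (1 / 2 : ℝ) ^ p.1.1 := by
    intro p
    simp only [f, norm_smul, norm_mul, norm_inv, norm_norm, norm_pow, Real.norm_ofNat, one_div,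
      inv_pow, mul_assoc]
    exact mul_le_of_le_one_right (by positivity) inv_mul_le_one
  have ht : Filter.Tendsto f Filter.cofinite (nhds 0) := by
    rw [NormedAddGroup.tendsto_nhds_zero]
    intro ε hε
    obtain ⟨J, hJ⟩ := exists_pow_lt_of_lt_one hε (by norm_num : (1 / 2 : ℝ) < 1)
    rw [Filter.eventually_cofinite]
    have h1 : (⋃ j ∈ Set.Iio J, ({j} : Set ℕ) ×ˢ M j).Finite :=
      (Set.finite_Iio J).biUnion fun j _ => (Set.finite_singleton j).prod (hM j)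
    refine (h1.preimage Subtype.val_injective.injOn).subset fun p hp => ?_
    refine Set.mem_biUnion (x := p.1.1) ?_ ⟨rfl, p.2⟩
    by_contra h2
    have h3 : (1 / 2 : ℝ) ^ p.1.1 ≤ (1 / 2) ^ J :=
      pow_le_pow_of_le_one (by norm_num) (by norm_num) (not_lt.1 h2)
    exact hp (((hf p).trans h3).trans_lt hJ)
  obtain ⟨S, hS, h⟩ := hAP _ ht.isCompact_insert_range_of_cofinite (1 / 4) (by norm_num)
  refine ⟨S, hS, fun j x hx => ?_⟩
  by_cases h0 : x = 0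
  · simp [h0]
  have h1 := h _ (Set.mem_insert_of_mem _ ⟨⟨(j, x), hx⟩, rfl⟩)
  have h2 : 0 < ‖x‖ := norm_pos_iff.2 h0
  simp only [f, map_smul, ← smul_sub, norm_smul, norm_mul, norm_inv, norm_norm, norm_pow,
    Real.norm_ofNat] at h1
  rw [← mul_inv, inv_mul_lt_iff₀ (by positivity)] at h1
  linarith

lemma finite_rank_decay (S : X →L[ℝ] X)
    (hS : FiniteDimensional ℝ (LinearMap.range (S : X →ₗ[ℝ] X))) (a : ℝ)
    (ha : a ^ 2 ≤ 2) : ∃ c : ℝ, ∀ (n : ℕ) (F : V (Fin n) → X) (G : V (Fin n) → StrongDual ℝ X),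
      a ^ n * pr (fun x => S (F x)) G ≤ c * am F G := by
  let b := Module.finBasis ℝ (LinearMap.range (S : X →ₗ[ℝ] X))
  let φ : Fin _ → X →L[ℝ] ℝ := fun i =>
    (LinearMap.toContinuousLinearMap (b.coord i)).comp
      (S.codRestrict (LinearMap.range (S : X →ₗ[ℝ] X)) fun x => ⟨x, rfl⟩)
  have hφ : ∀ x, S x = ∑ i, φ i x • (b i : X) := by
    intro x
    have := congrArg Subtype.val (b.sum_repr ⟨S x, x, rfl⟩)
    simp only [AddSubmonoidClass.coe_finsetSum, SetLike.val_smul] at this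
    exact this.symm
  refine ⟨∑ i, ‖φ i‖ * ‖(b i : X)‖, fun n F G => ?_⟩
  have h1 : pr (fun x => S (F x)) G =
      ∑ i, avg fun x => avg fun y => e (x ⬝ᵥ y) * φ i (F x) * G y (b i) := by
    simp only [pr, hφ, map_sum, map_smul, smul_eq_mul, mul_sum, avg_sum, mul_assoc]
  rw [h1, mul_sum, sum_mul]
  refine sum_le_sum fun i _ => ?_
  have h2 := hadamard_scalar (fun x => φ i (F x)) (fun y => G y (b i))
  rw [Fintype.card_fin] at h2
  set A := avg fun x => ‖F x‖ ^ 2 with hA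
  set B := avg fun y => ‖G y‖ ^ 2 with hB
  have hA0 : 0 ≤ A := avg_nonneg fun _ => sq_nonneg _
  have hB0 : 0 ≤ B := avg_nonneg fun _ => sq_nonneg _
  have h3 : (avg fun x => φ i (F x) ^ 2) ≤ ‖φ i‖ ^ 2 * A := by
    rw [hA, ← avg_mul_left]
    refine avg_mono fun x => ?_
    rw [← mul_pow, ← sq_abs]
    exact pow_le_pow_left₀ (abs_nonneg _) ((φ i).le_opNorm _) 2
  have h4 : (avg fun y => G y (b i) ^ 2) ≤ ‖(b i : X)‖ ^ 2 * B := by
    rw [hB, ← avg_mul_left]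
    refine avg_mono fun y => ?_
    rw [← mul_pow, ← sq_abs, mul_comm]
    exact pow_le_pow_left₀ (abs_nonneg _) ((G y).le_opNorm _) 2
  have h5 : (a ^ n) ^ 2 * (2 ^ n : ℝ)⁻¹ ≤ 1 := by
    rw [← pow_mul, mul_comm n 2, pow_mul, mul_inv_le_iff₀ (by positivity), one_mul]
    exact pow_le_pow_left₀ (sq_nonneg _) ha n
  refine abs_le_of_sq_le_sq' ?_ (mul_nonneg (by positivity) (am_nonneg F G)) |>.2
  have h6 : 0 ≤ avg fun y => G y (b i) ^ 2 := avg_nonneg fun _ => sq_nonneg _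
  have h7 : 0 ≤ avg fun x => φ i (F x) ^ 2 := avg_nonneg fun _ => sq_nonneg _
  calc _ = (a ^ n) ^ 2 * (avg fun x => avg fun y => e (x ⬝ᵥ y) * φ i (F x) * G y (b i)) ^ 2 :=
        mul_pow _ _ _
    _ ≤ (a ^ n) ^ 2 * ((2 ^ n : ℝ)⁻¹ * (‖φ i‖ ^ 2 * A) * (‖(b i : X)‖ ^ 2 * B)) := by
        gcongr
        exact h2.trans (by gcongr)
    _ = ((a ^ n) ^ 2 * (2 ^ n : ℝ)⁻¹) * ((‖φ i‖ * ‖(b i : X)‖) ^ 2 * (A * B)) := by ring
    _ ≤ 1 * ((‖φ i‖ * ‖(b i : X)‖) ^ 2 * ((A + B) / 2) ^ 2) := by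
        gcongr
        nlinarith [sq_nonneg (A - B)]
    _ = _ := by rw [am, one_mul, ← mul_pow]

/-- The conclusion of the core theorem, for cube dimensions `k`, `k'`. -/
def CoreProp (k k' : ℕ) (cA cB mass : ℝ) : Prop :=
  ∀ {W : Type u} [NormedAddCommGroup W] [NormedSpace ℝ W]
    (Adm : (W →ₗ[ℝ] ℝ) → ℝ → Prop) (_ : ∀ l s, Adm l s → Adm (-l) s)
    (_ : ∀ l s, Adm l s → 0 ≤ s)
    (M : Type) [Fintype M] [DecidableEq M]
    (F : V M × V (Fin k) × V (Fin k') → W →ₗ[ℝ] ℝ)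
    (G : V M × V (Fin k) × V (Fin k') → W) (β L₂ : ℝ) (_ : 0 < β)
    (_ : ∀ a b, F a (G b) = β * e (a.1 ⬝ᵥ b.1 + a.2.1 ⬝ᵥ b.2.1 + a.2.2 ⬝ᵥ b.2.2))
    (_ : ∀ b, ‖G b‖ ≤ 1)
    (_ : ∀ a : Fin k → V M × V (Fin k) × V (Fin k'),
      ∃ (f : V (Fin k) → W →ₗ[ℝ] ℝ) (s : V (Fin k) → ℝ),
        (∀ w, Adm (f w) (s w)) ∧ (∀ i, (avg fun w => e (w i) • f w) = F (a i)) ∧
        avg s ≤ cA ^ 2)
    (_ : ∀ b : Fin k' → V M × V (Fin k) × V (Fin k'),
      ∃ y : V (Fin k') → W, (∀ j, (avg fun w => e (w j) • y w) = G (b j)) ∧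
        (avg fun w => ‖y w‖ ^ 2) ≤ cB ^ 2)
    (_ : HB Adm M (8 * β)) (_ : HB Adm (M ⊕ M) L₂) (_ : 0 ≤ L₂) (_ : L₂ * mass ≤ β),
    False

/-- The functional on the `ℓ₂`-sum of duals attached to a family of vectors. -/
noncomputable def fnl {Γ : Type} [Fintype Γ] (S : X →L[ℝ] X) (c : ℝ) :
    (Γ → X) →ₗ[ℝ] (PiLp 2 fun _ : Γ => StrongDual ℝ X) →ₗ[ℝ] ℝ :=
  LinearMap.mk₂ ℝ (fun x η => c * ∑ γ, η γ (S (x γ)))
    (fun x y η => by simp [sum_add_distrib, mul_add])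
    (fun t x η => by simp [mul_sum, mul_left_comm])
    (fun x η η' => by simp [sum_add_distrib, mul_add])
    (fun t x η => by simp [mul_sum, mul_left_comm])

lemma fnl_apply {Γ : Type} [Fintype Γ] (S : X →L[ℝ] X) (c : ℝ) (x : Γ → X)
    (η : PiLp 2 fun _ : Γ => StrongDual ℝ X) : fnl S c x η = c * ∑ γ, η γ (S (x γ)) := rfl

lemma smul_e_mem {M : Set X} (hM : ∀ x, x ∈ M → -x ∈ M) (z : ZMod 2) {x : X} (hx : x ∈ M) :
    e z • x ∈ M := by
  rcases e_cases z with h | h <;> rw [h]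
  · simpa using hx
  · simpa using hM x hx

lemma norm_e_smul {Y : Type*} [NormedAddCommGroup Y] [NormedSpace ℝ Y] (z : ZMod 2) (y : Y) :
    ‖e z • y‖ = ‖y‖ := by rw [norm_smul, Real.norm_eq_abs, abs_e, one_mul]

lemma sum_eq_card_avg {α : Type} [Fintype α] [Nonempty α] (f : α → ℝ) :
    ∑ a, f a = Fintype.card α * avg f := by
  have : (Fintype.card α : ℝ) ≠ 0 := by exact_mod_cast Fintype.card_ne_zero
  simp only [avg, smul_eq_mul]; field_simp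

/-- Heisenberg averaging. -/
lemma symmetrise {k k' m : ℕ} {cA cB mass : ℝ} (hcore : CoreProp.{u} k k' cA cB mass)
    {ι : Type} [Fintype ι] [DecidableEq ι] (τ : V (Fin m) × V (Fin k) × V (Fin k') → V ι)
    (hτ : ∀ a b, τ a ⬝ᵥ τ b = a.1 ⬝ᵥ b.1 + a.2.1 ⬝ᵥ b.2.1 + a.2.2 ⬝ᵥ b.2.2)
    (S : X →L[ℝ] X) (M M' : Set X) (hM : ∀ x, x ∈ M → -x ∈ M) (hM' : ∀ x, x ∈ M' → -x ∈ M')
    (lift : (Fin k → X) → V (Fin k) → X) (dA dB : ℝ)
    (hl1 : ∀ x i, (avg fun w => e (w i) • lift x w) = x i)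
    (hl2 : ∀ x, (avg fun w => ‖lift x w‖ ^ 2) ≤ dA * ∑ i, ‖x i‖ ^ 2)
    (hl3 : ∀ x, (∀ i, x i ∈ M) → ∀ w, lift x w ∈ M') (hdA : dA * k ≤ cA ^ 2)
    (hB : ∀ ξ : Fin k' → StrongDual ℝ X, ∃ g : V (Fin k') → StrongDual ℝ X,
      (∀ i, (avg fun w => e (w i) • g w) = ξ i) ∧
      (avg fun w => ‖g w‖ ^ 2) ≤ dB * ∑ i, ‖ξ i‖ ^ 2) (hdB : dB * k' ≤ cB ^ 2)
    (F : V ι → X) (G : V ι → StrongDual ℝ X) (hF : ∀ a, F a ∈ M) (φ β : ℝ) (hφ : 0 < φ)
    (hβ : 0 < β) (hFn : (avg fun a => ‖F a‖ ^ 2) = φ ^ 2) (hGn : (avg fun b => ‖G b‖ ^ 2) = φ ^ 2)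
    (hval : pr (fun a => S (F a)) G = β * φ ^ 2) (L : ℕ → ℝ)
    (hL : ∀ (n : ℕ) (F' : V (Fin n) → X) (G' : V (Fin n) → StrongDual ℝ X), (∀ a, F' a ∈ M') →
      pr (fun a => S (F' a)) G' ≤ L n * am F' G')
    (hL1 : L m ≤ 8 * β) (hL2 : 0 ≤ L (m + m)) (hL3 : L (m + m) * mass ≤ β) : False := by
  have hN : (0 : ℝ) < Fintype.card (V ι × V ι) := by exact_mod_cast Fintype.card_pos
  obtain ⟨c, hc0, hc⟩ : ∃ c : ℝ, 0 < c ∧ c ^ 2 * (Fintype.card (V ι × V ι) * φ ^ 2) = 1 := by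
    refine ⟨(√(Fintype.card (V ι × V ι)) * φ)⁻¹, by positivity, ?_⟩
    rw [inv_pow, mul_pow, Real.sq_sqrt hN.le]; field_simp
  let Ft : V ι → V ι × V ι → X := fun a γ => e (a ⬝ᵥ γ.2 + γ.1 ⬝ᵥ γ.2) • F (a + γ.1)
  let Gt : V ι → PiLp 2 fun _ : V ι × V ι => StrongDual ℝ X := fun b =>
    WithLp.toLp 2 fun γ => c • e (γ.1 ⬝ᵥ b) • G (b + γ.2)
  let Adm : ((PiLp 2 fun _ : V ι × V ι => StrongDual ℝ X) →ₗ[ℝ] ℝ) → ℝ → Prop := fun l s =>
    ∃ x : V ι × V ι → X, (∀ γ, x γ ∈ M') ∧ l = fnl S c x ∧ s = c ^ 2 * ∑ γ, ‖x γ‖ ^ 2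
  have hFt : ∀ a, c ^ 2 * ∑ γ, ‖Ft a γ‖ ^ 2 = 1 := by
    intro a
    rw [sum_eq_card_avg, avg_prod, ← hc, ← hFn]
    simp only [Ft, norm_e_smul, avg_const]
    rw [avg_shift' (fun a => ‖F a‖ ^ 2)]
  have hGt : ∀ b, ∑ γ, ‖Gt b γ‖ ^ 2 = 1 := by
    intro b
    rw [sum_eq_card_avg, avg_prod, ← hc, ← hGn]
    have h1 : ∀ γ : V ι × V ι, ‖Gt b γ‖ ^ 2 = c ^ 2 * ‖G (b + γ.2)‖ ^ 2 := fun γ => by
      show ‖c • e (γ.1 ⬝ᵥ b) • G (b + γ.2)‖ ^ 2 = _
      rw [norm_smul, norm_smul, Real.norm_eq_abs (e _), abs_e, one_mul, mul_pow, Real.norm_eq_abs,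
        sq_abs]
    simp only [h1, avg_mul_left]
    rw [avg_shift' (fun a => ‖G a‖ ^ 2), avg_const]; ring
  have hHB : ∀ n, HB Adm (Fin n) (L n) := by
    intro n l s y hl
    choose x hx hl hs using hl
    have h1 : ∀ γ, c * pr (fun a => S (x a γ)) (fun b => y b γ) ≤
        L n * (c ^ 2 * (avg fun a => ‖x a γ‖ ^ 2) + avg fun b => ‖y b γ‖ ^ 2) / 2 := by
      intro γ
      have h2 := hL n (fun a => x a γ) (fun b => c⁻¹ • y b γ) fun a => hx a γ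
      rw [pr_smul, am] at h2
      simp only [norm_smul, mul_pow, Real.norm_eq_abs, sq_abs, avg_mul_left] at h2
      have h3 := mul_le_mul_of_nonneg_left h2 (sq_nonneg c)
      refine le_trans (le_of_eq ?_) (h3.trans (le_of_eq ?_)) <;> field_simp
    refine le_trans (le_of_eq ?_) ((sum_le_sum (s := univ) fun γ _ => h1 γ).trans (le_of_eq ?_))
    · simp only [hl, fnl_apply, pr, ← avg_mul_left, ← avg_sum, mul_sum]
      congr 1; funext a; congr 1; funext b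
      exact sum_congr rfl fun _ _ => by ring
    · have h4 : s = fun a => c ^ 2 * ∑ γ, ‖x a γ‖ ^ 2 := funext hs
      simp only [h4, PiLp.norm_sq_eq_of_L2, avg_mul_left, avg_sum]
      rw [← sum_div, ← mul_sum, sum_add_distrib, ← mul_sum]
  refine hcore Adm ?_ ?_ (Fin m) (fun a => fnl S c (Ft (τ a))) (fun b => Gt (τ b)) β (L (m + m))
    hβ ?_ ?_ ?_ ?_ ?_ ((hHB (m + m)).equiv finSumFinEquiv.symm) hL2 hL3
  · rintro l s ⟨x, hx, rfl, rfl⟩
    exact ⟨-x, fun γ => hM' _ (hx γ), (map_neg _ _).symm, by simp⟩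
  · rintro l s ⟨x, hx, rfl, rfl⟩
    positivity
  · intro a b
    rw [← hτ, fnl_apply]
    generalize τ a = a
    generalize τ b = b
    have h1 : ∀ γ : V ι × V ι, Gt b γ (S (Ft a γ)) =
        c * e (a ⬝ᵥ b) * (e ((a + γ.1) ⬝ᵥ (b + γ.2)) * G (b + γ.2) (S (F (a + γ.1)))) := by
      intro γ
      simp only [Gt, Ft, smul_apply, map_smul, smul_eq_mul, add_dotProduct,
        dotProduct_add, e_add]
      linear_combination (-(c * e (γ.1 ⬝ᵥ b) * e (a ⬝ᵥ γ.2) * e (γ.1 ⬝ᵥ γ.2) *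
        G (b + γ.2) (S (F (a + γ.1))))) * e_mul_self (a ⬝ᵥ b)
    simp only [h1]
    rw [← mul_sum, sum_eq_card_avg, avg_prod]
    have h2 : ∀ a0 : V ι, (avg fun b0 : V ι =>
        e ((a + a0) ⬝ᵥ (b + b0)) * G (b + b0) (S (F (a + a0)))) =
        avg fun b0 => e ((a + a0) ⬝ᵥ b0) * G b0 (S (F (a + a0))) := fun a0 =>
      avg_shift' (fun b0 => e ((a + a0) ⬝ᵥ b0) * G b0 (S (F (a + a0)))) b
    simp only [h2]
    rw [avg_shift' (fun a0 => avg fun b0 => e (a0 ⬝ᵥ b0) * G b0 (S (F a0))) a]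
    have h3 : (avg fun a0 => avg fun b0 => e (a0 ⬝ᵥ b0) * G b0 (S (F a0))) = β * φ ^ 2 := hval
    rw [h3]
    linear_combination (β * e (a ⬝ᵥ b)) * hc
  · intro b
    have := hGt (τ b)
    rw [← PiLp.norm_sq_eq_of_L2] at this
    nlinarith [norm_nonneg (Gt (τ b))]
  · intro a
    refine ⟨fun w => fnl S c fun γ => lift (fun i => Ft (τ (a i)) γ) w,
      fun w => c ^ 2 * ∑ γ, ‖lift (fun i => Ft (τ (a i)) γ) w‖ ^ 2,
      fun w => ⟨_, fun γ => hl3 _ (fun i => smul_e_mem hM _ (hF _)) w, rfl, rfl⟩,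
      fun i => ?_, ?_⟩
    · simp only [← map_smul]
      rw [← map_avg]
      congr 1
      funext γ
      exact (map_avg (LinearMap.proj γ : (V ι × V ι → X) →ₗ[ℝ] X) _).trans (hl1 _ i)
    · rw [avg_mul_left, avg_sum]
      refine le_trans (mul_le_mul_of_nonneg_left (sum_le_sum fun γ _ => hl2 _) (sq_nonneg c))
        (le_trans (le_of_eq ?_) hdA)
      rw [← mul_sum, sum_comm, mul_left_comm, mul_sum]
      simp only [hFt]; simp
  · intro b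
    choose g hg1 hg2 using fun γ : V ι × V ι => hB fun j => Gt (τ (b j)) γ
    refine ⟨fun w => WithLp.toLp 2 fun γ => g γ w, fun j => ?_, ?_⟩
    · ext1 γ
      exact (map_avg (PiLp.projₗ (𝕜 := ℝ) 2 (fun _ : V ι × V ι => StrongDual ℝ X) γ) _).trans
        (hg1 γ j)
    · simp only [PiLp.norm_sq_eq_of_L2]
      rw [avg_sum]
      refine le_trans (sum_le_sum fun γ _ => hg2 γ) (le_trans (le_of_eq ?_) hdB)
      rw [← mul_sum, sum_comm]
      simp only [hGt]; simp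
  · intro l s y hl
    refine (hHB m l s y hl).trans ?_
    have h1 : 0 ≤ avg s := avg_nonneg fun a => by
      obtain ⟨x, -, -, h⟩ := hl a
      rw [h]; positivity
    have h2 : 0 ≤ avg fun b => ‖y b‖ ^ 2 := avg_nonneg fun _ => sq_nonneg _
    gcongr

lemma exists_tau (m k k' : ℕ) : ∃ τ : V (Fin m) × V (Fin k) × V (Fin k') → V (Fin (m + (k + k'))),
    ∀ a b, τ a ⬝ᵥ τ b = a.1 ⬝ᵥ b.1 + a.2.1 ⬝ᵥ b.2.1 + a.2.2 ⬝ᵥ b.2.2 := by
  refine ⟨fun a => Fin.append a.1 (Fin.append a.2.1 a.2.2), fun a b => ?_⟩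
  simp only [dotProduct, Fin.sum_univ_add, Fin.append_left, Fin.append_right, add_assoc]

/-- The extremal scale argument. -/
theorem extremal (hAP : HasApproximationProperty X) {k k' : ℕ} {cA cB mass : ℝ}
    (hcore : CoreProp.{u} k k' cA cB mass) (hk : 1 ≤ k) (dA dB : ℝ)
    (hA : ∀ x : Fin k → X, ∃ f : V (Fin k) → X, (∀ i, (avg fun w => e (w i) • f w) = x i) ∧
      (avg fun w => ‖f w‖ ^ 2) ≤ dA * ∑ i, ‖x i‖ ^ 2) (hdA : dA * k ≤ cA ^ 2)
    (hB : ∀ ξ : Fin k' → StrongDual ℝ X, ∃ g : V (Fin k') → StrongDual ℝ X,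
      (∀ i, (avg fun w => e (w i) • g w) = ξ i) ∧
      (avg fun w => ‖g w‖ ^ 2) ≤ dB * ∑ i, ‖ξ i‖ ^ 2) (hdB : dB * k' ≤ cB ^ 2) :
    ∃ n : ℕ, ∀ (F : V (Fin n) → X) (G : V (Fin n) → StrongDual ℝ X),
      pr F G ≤ 1 / 2 * am F G := by
  obtain ⟨a, ha1, ha2, hak⟩ : ∃ a : ℝ, 1 < a ∧ a ^ 2 ≤ 2 ∧ a ^ (k + k') ≤ 2 := by
    have hK : (1 : ℝ) ≤ (k + k' : ℕ) := by exact_mod_cast (by omega : 1 ≤ k + k')
    have h1 : (0 : ℝ) < 1 / (4 * (k + k' : ℕ)) := by positivity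
    have h2 : (1 : ℝ) / (4 * (k + k' : ℕ)) ≤ 1 / 4 :=
      one_div_le_one_div_of_le (by norm_num) (by linarith)
    refine ⟨1 + 1 / (4 * (k + k' : ℕ)), by linarith, by nlinarith, ?_⟩
    have h3 : (1 + 1 / (4 * (k + k' : ℕ)) : ℝ) ≤ Real.exp (1 / (4 * (k + k' : ℕ))) := by
      linarith [Real.add_one_le_exp (1 / (4 * (k + k' : ℕ)) : ℝ)]
    refine (pow_le_pow_left₀ (by positivity) h3 _).trans ?_
    rw [← Real.exp_nat_mul, show ((k + k' : ℕ) : ℝ) * (1 / (4 * (k + k' : ℕ))) = 1 / 4 by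
      field_simp]
    have h4 := Real.exp_bound_div_one_sub_of_interval' (x := 1 / 4) (by norm_num) (by norm_num)
    linarith
  have ha0 : 0 < a := by linarith
  obtain ⟨n0, hn0⟩ := pow_unbounded_of_one_lt (16 * (a ^ (k + k') * max 1 (8 * mass))) ha1
  refine ⟨n0, fun F0 G0 => ?_⟩
  by_contra hcon
  push Not at hcon
  choose lift hl1 hl2 using hA
  obtain ⟨M, hMf, hMs, hM0, hMl⟩ := exists_chain F0 lift
  obtain ⟨S, hS, hSa⟩ := exists_approx hAP M hMf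
  obtain ⟨cS, hcS⟩ := finite_rank_decay S hS a ha2
  have hdiff : ∀ j n (F : V (Fin n) → X) (G : V (Fin n) → StrongDual ℝ X), (∀ x, F x ∈ M j) →
      |pr (fun x => S (F x)) G - pr F G| ≤ 2 ^ j / 4 * am F G := fun j n F G hF => by
    rw [← pr_sub]
    exact abs_pr_le F _ G _ (by positivity) fun x => hSa j _ (hF x)
  have hraw : ∀ n (F : V (Fin n) → X) (G : V (Fin n) → StrongDual ℝ X), |pr F G| ≤ am F G :=
    fun n F G => by simpa using abs_pr_le F F G 1 zero_le_one fun x => by simp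
  have habs : ∀ j n (F : V (Fin n) → X) (G : V (Fin n) → StrongDual ℝ X), (∀ x, F x ∈ M j) →
      pr (fun x => S (F x)) G ≤ 2 * 2 ^ j * am F G := fun j n F G hF => by
    have h1 := (abs_le.1 (hdiff j n F G hF)).2
    have h2 := (abs_le.1 (hraw n F G)).2
    have h3 : (1 : ℝ) ≤ 2 ^ j := one_le_pow₀ one_le_two
    nlinarith [am_nonneg F G]
  let T : Set ℝ := {t | ∃ (j n : ℕ) (F : V (Fin n) → X) (G : V (Fin n) → StrongDual ℝ X),
    (∀ x, F x ∈ M j) ∧ 0 < am F G ∧ t = a ^ n * pr (fun x => S (F x)) G / (2 ^ j * am F G)}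
  have hT : BddAbove T := by
    refine ⟨|cS|, ?_⟩
    rintro t ⟨j, n, F, G, -, h1, rfl⟩
    rw [div_le_iff₀ (by positivity)]
    have h3 : (1 : ℝ) ≤ 2 ^ j := one_le_pow₀ one_le_two
    calc _ ≤ cS * am F G := hcS n F G
      _ ≤ |cS| * (1 * am F G) := by rw [one_mul]; gcongr; exact le_abs_self _
      _ ≤ _ := by gcongr
  have ham0 : 0 < am F0 G0 := by
    have := (abs_le.1 (hraw n0 F0 G0)).2
    linarith
  have hmem : a ^ n0 * pr (fun x => S (F0 x)) G0 / (2 ^ 0 * am F0 G0) ∈ T :=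
    ⟨0, n0, F0, G0, hM0, ham0, rfl⟩
  obtain ⟨Ξ, hΞ⟩ : ∃ Ξ, Ξ = sSup T := ⟨_, rfl⟩
  have hΞ1 : a ^ n0 / 4 ≤ Ξ := by
    rw [hΞ]
    refine le_trans ?_ (le_csSup hT hmem)
    rw [le_div_iff₀ (by positivity)]
    have h1 := (abs_le.1 (hdiff 0 n0 F0 G0 hM0)).1
    have h2 : am F0 G0 / 4 ≤ pr (fun x => S (F0 x)) G0 := by linarith
    have h3 := mul_le_mul_of_nonneg_left h2 (pow_pos ha0 n0).le
    linarith
  have hΞ0 : 0 < Ξ := lt_of_lt_of_le (by positivity) hΞ1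
  have hΞ2 : ∀ j n (F : V (Fin n) → X) (G : V (Fin n) → StrongDual ℝ X), (∀ x, F x ∈ M j) →
      pr (fun x => S (F x)) G ≤ Ξ * 2 ^ j / a ^ n * am F G := by
    intro j n F G hF
    rcases (am_nonneg F G).eq_or_lt with h0 | h0
    · have := habs j n F G hF
      rw [← h0] at this ⊢; simpa using this
    · have h1 : a ^ n * pr (fun x => S (F x)) G / (2 ^ j * am F G) ≤ Ξ := by
        rw [hΞ]; exact le_csSup hT ⟨j, n, F, G, hF, h0, rfl⟩
      rw [div_le_iff₀ (by positivity)] at h1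
      rw [div_mul_eq_mul_div, le_div_iff₀ (by positivity)]
      linarith
  obtain ⟨t, ⟨j, n, F, G, hF, ham, rfl⟩, ht⟩ :=
    exists_lt_of_lt_csSup (b := Ξ / 2) ⟨_, hmem⟩ (by rw [← hΞ]; linarith)
  rw [lt_div_iff₀ (by positivity)] at ht
  have han : a ^ (k + k') * max 1 (8 * mass) < a ^ n := by
    have h1 := mul_le_mul_of_nonneg_left (habs j n F G hF) (pow_pos ha0 n).le
    have h2 : Ξ / 2 * (2 ^ j * am F G) < (2 * a ^ n) * (2 ^ j * am F G) := by linarith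
    have h3 := lt_of_mul_lt_mul_right h2 (by positivity)
    linarith
  have hn : k + k' ≤ n := by
    have h1 : a ^ (k + k') * 1 ≤ a ^ (k + k') * max 1 (8 * mass) := by
      gcongr; exact le_max_left _ _
    exact ((pow_lt_pow_iff_right₀ ha1).1 (by linarith : a ^ (k + k') < a ^ n)).le
  obtain ⟨m, rfl⟩ : ∃ m, n = m + (k + k') := ⟨n - (k + k'), by omega⟩
  have hm : 8 * mass ≤ a ^ m := by
    rw [pow_add a m, mul_comm (a ^ m)] at han
    exact (le_max_right _ _).trans (lt_of_mul_lt_mul_left han (by positivity)).le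
  obtain ⟨τ, hτ⟩ := exists_tau m k k'
  obtain ⟨v, hv⟩ : ∃ v, v = pr (fun x => S (F x)) G := ⟨_, rfl⟩
  have hv0 : 0 < v := by
    rw [← hv] at ht
    have h1 : 0 < a ^ (m + (k + k')) * v := lt_trans (by positivity) ht
    exact (mul_pos_iff_of_pos_left (by positivity)).1 h1
  have hA0 : 0 ≤ avg fun x => ‖F x‖ ^ 2 := avg_nonneg fun _ => sq_nonneg _
  have hB0 : 0 ≤ avg fun x => ‖G x‖ ^ 2 := avg_nonneg fun _ => sq_nonneg _
  obtain ⟨φ, hφ0, hφ⟩ : ∃ φ : ℝ, 0 ≤ φ ∧ (avg fun x => ‖F x‖ ^ 2) = φ ^ 2 :=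
    ⟨_, Real.sqrt_nonneg _, (Real.sq_sqrt hA0).symm⟩
  obtain ⟨ψ, hψ0, hψ⟩ : ∃ ψ : ℝ, 0 ≤ ψ ∧ (avg fun x => ‖G x‖ ^ 2) = ψ ^ 2 :=
    ⟨_, Real.sqrt_nonneg _, (Real.sq_sqrt hB0).symm⟩
  have hsq : v ^ 2 ≤ ‖S‖ ^ 2 * φ ^ 2 * ψ ^ 2 := by
    rw [hv, ← hφ, ← hψ]
    refine (pr_sq_le _ _).trans (mul_le_mul_of_nonneg_right ?_ hB0)
    rw [← avg_mul_left]
    refine avg_mono fun x => ?_
    rw [← mul_pow]
    exact pow_le_pow_left₀ (norm_nonneg _) (S.le_opNorm _) 2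
  have hφ1 : 0 < φ := by
    refine hφ0.lt_of_ne fun h => ?_
    rw [← h] at hsq; nlinarith
  have hψ1 : 0 < ψ := by
    refine hψ0.lt_of_ne fun h => ?_
    rw [← h] at hsq; nlinarith
  have hβ : Ξ * 2 ^ j / a ^ (m + (k + k')) ≤ 2 * (v / (φ * ψ)) := by
    rw [← hv, am, hφ, hψ] at ht
    rw [div_le_iff₀ (by positivity), ← mul_div_assoc, div_mul_eq_mul_div,
      le_div_iff₀ (by positivity)]
    have h1 : Ξ * 2 ^ j * (φ * ψ) ≤ Ξ * 2 ^ j * ((φ ^ 2 + ψ ^ 2) / 2) := by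
      gcongr; nlinarith [sq_nonneg (φ - ψ)]
    linarith
  have hL1 : Ξ * 2 ^ (j + 1) / a ^ m ≤ 8 * (v / (φ * ψ)) := by
    calc Ξ * 2 ^ (j + 1) / a ^ m = 2 * a ^ (k + k') * (Ξ * 2 ^ j / a ^ (m + (k + k'))) := by
          rw [pow_add a m, pow_succ]; field_simp
      _ ≤ 2 * 2 * (2 * (v / (φ * ψ))) := by gcongr
      _ = _ := by ring
  refine symmetrise hcore τ hτ S (M j) (M (j + 1)) (hMs j) (hMs (j + 1)) lift dA dB hl1 hl2
    (hMl j) hdA hB hdB F (fun b => (φ / ψ) • G b) hF φ (v / (φ * ψ)) hφ1 (by positivity) hφ ?_ ?_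
    (fun n => Ξ * 2 ^ (j + 1) / a ^ n) (hΞ2 (j + 1)) hL1 (by positivity) ?_
  · simp only [norm_smul, mul_pow, Real.norm_eq_abs, sq_abs, avg_mul_left, hψ]
    field_simp
  · rw [pr_smul, ← hv]; field_simp
  · have h1 : 0 < v / (φ * ψ) := by positivity
    calc Ξ * 2 ^ (j + 1) / a ^ (m + m) * mass
        = Ξ * 2 ^ (j + 1) / a ^ m * (8 * mass) / (8 * a ^ m) := by rw [pow_add a m]; field_simp
      _ ≤ 8 * (v / (φ * ψ)) * a ^ m / (8 * a ^ m) := by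
          refine div_le_div_of_nonneg_right ?_ (by positivity)
          exact (mul_le_mul_of_nonneg_left hm (by positivity)).trans (by gcongr)
      _ = _ := by field_simp

end Crest.Agent.R118.ExtremalAux
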