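import Crest.Agent.R118.Dual
import Crest.Prelude.Def_Rademacher

/-! Row 118: Hahn–Banach lifts from cotype. -/

set_option autoImplicit false

namespace Crest.Agent.R118

open Finset Crest.AnalysisR

namespace Lifts

variable {X : Type*} [NormedAddCommGroup X] [NormedSpace ℝ X] {K : Type} [Fintype K]
  [DecidableEq K]

lemma avg_e_mul (i j : K) : (avg fun w : V K => e (w i) * e (w j)) = if j = i then 1 else 0 := by
  have := avg_e_dot (Pi.single i 1 + Pi.single j 1 : V K)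
  simp only [add_dotProduct, single_dotProduct, one_mul, e_add, V.add_eq_zero_iff] at this
  rw [this]
  refine if_congr ⟨fun h => ?_, fun h => by rw [h]⟩ rfl rfl
  by_contra hij
  simpa [hij] using congrFun h j

lemma hat_rad (x : K → X) (i : K) : (avg fun w : V K => e (w i) • ∑ j, e (w j) • x j) = x i := by
  have : ∀ j, (avg fun w : V K => (e (w i) * e (w j)) • x j) = (if j = i then 1 else 0 : ℝ) • x j :=
    fun j => by
      rw [← avg_e_mul]
      exact (map_avg (LinearMap.toSpanSingleton ℝ X (x j)) _).symm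
  simp only [smul_sum, smul_smul, avg_sum, this]
  simp

/-- The `ℓ₂`-sum over the cube. -/
abbrev H (K : Type) (X : Type*) := PiLp 2 fun _ : V K => X

/-- Rademacher coefficients. -/
noncomputable def hat : H K X →ₗ[ℝ] K → X where
  toFun f i := avg fun w => e (w i) • f w
  map_add' f g := by ext i; simp [avg_add]
  map_smul' c f := by ext i; simp [← avg_smul, smul_comm c]

/-- Rademacher sums. -/
noncomputable def rad : (K → X) →L[ℝ] H K X :=
  (PiLp.continuousLinearEquiv 2 ℝ fun _ : V K => X).symm.toContinuousLinearMap ∘L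
    .pi fun w => ∑ i, e (w i) • .proj i

omit [DecidableEq K] in
lemma rad_apply (x : K → X) (w : V K) : rad x w = ∑ i, e (w i) • x i := by simp [rad]

lemma hat_rad' (x : K → X) : hat (rad x) = x := funext fun i => by
  simp only [hat, LinearMap.coe_mk, AddHom.coe_mk, rad_apply, hat_rad]

lemma card_pos : (0 : ℝ) < Fintype.card (V K) := by exact_mod_cast Fintype.card_pos

lemma sum_eq_avg {E : Type*} [AddCommGroup E] [Module ℝ E] (f : V K → E) :
    ∑ w, f w = (Fintype.card (V K) : ℝ) • avg f := by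
  rw [avg, smul_smul, mul_inv_cancel₀ card_pos.ne', one_smul]

omit [NormedSpace ℝ X] in
lemma norm_sq_H (f : H K X) : ‖f‖ ^ 2 = Fintype.card (V K) * avg fun w => ‖f w‖ ^ 2 := by
  rw [PiLp.norm_sq_eq_of_L2, sum_eq_avg, smul_eq_mul]

omit [DecidableEq K] in
lemma sum_apply_le (ξ : K → StrongDual ℝ X) (x : K → X) :
    ∑ i, ξ i (x i) ≤ √(∑ i, ‖ξ i‖ ^ 2) * √(∑ i, ‖x i‖ ^ 2) :=
  (sum_le_sum fun i _ => (le_abs_self _).trans ((ξ i).le_opNorm (x i))).trans
    (Real.sum_mul_le_sqrt_mul_sqrt _ _ _)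

end Lifts

open Lifts

theorem liftA {X : Type*} [NormedAddCommGroup X] [NormedSpace ℝ X]
    (K : Type) [Fintype K] [DecidableEq K] (c : ℝ) (hc : 0 < c)
    (hcot : ∀ ξ : K → StrongDual ℝ X,
      ∑ i, ‖ξ i‖ ^ 2 ≤ c ^ 2 * avg fun w : V K => ‖∑ i, e (w i) • ξ i‖ ^ 2)
    (x : K → X) :
    ∃ f : V K → X, (∀ i, (avg fun w => e (w i) • f w) = x i) ∧
      (avg fun w => ‖f w‖ ^ 2) ≤ (2 * c) ^ 2 * ∑ i, ‖x i‖ ^ 2 := by
  have hN := card_pos (K := K)
  set N := (Fintype.card (V K) : ℝ) with hNd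
  have hS0 : 0 ≤ ∑ i, ‖x i‖ ^ 2 := sum_nonneg fun _ _ => sq_nonneg _
  rcases hS0.eq_or_lt with h0 | h0
  · refine ⟨0, fun i => ?_, by simp [← h0]⟩
    have := (sum_eq_zero_iff_of_nonneg fun _ _ => sq_nonneg _).1 h0.symm i (mem_univ _)
    simp [norm_eq_zero.1 (pow_eq_zero_iff two_ne_zero |>.1 this)]
  let S : Submodule ℝ (H K X) := LinearMap.ker hat
  obtain ⟨g, hg, hgx⟩ := exists_dual_vector'' ℝ (S.mkQ (rad x))
  let ξ : K → StrongDual ℝ X := fun i => g ∘L S.mkQL ∘L rad ∘L .single ℝ (fun _ => X) i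
  have h1 : ∀ y : K → X, g (S.mkQ (rad y)) = ∑ i, ξ i (y i) := fun y => by
    conv_lhs => rw [← univ_sum_single y]
    simp [ξ, map_sum]
  have h2 : ∀ f : H K X, S.mkQ (rad (hat f)) = S.mkQ f := fun f =>
    (Submodule.Quotient.eq S).2 (by simp [S, hat_rad'])
  have h3 := dual_l2 (fun w : V K => ∑ i, e (w i) • ξ i) N hN.le fun f => by
    have e1 : ∑ w, (∑ i, e (w i) • ξ i) (f w) = N * g (S.mkQ (WithLp.toLp 2 f)) := by
      rw [← h2, h1, sum_eq_avg, smul_eq_mul]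
      simp only [_root_.sum_apply, avg_sum]
      congr 1
      refine sum_congr rfl fun i _ => ?_
      simpa [hat] using (map_avg (ξ i).toLinearMap fun w => e (w i) • f w).symm
    rw [e1, ← PiLp.norm_eq_of_L2 (WithLp.toLp 2 f : H K X)]
    refine mul_le_mul_of_nonneg_left ((le_abs_self _).trans ((g.le_opNorm _).trans ?_)) hN.le
    exact (mul_le_of_le_one_left (norm_nonneg _) hg).trans (Submodule.Quotient.norm_mk_le _ _)
  rw [sum_eq_avg, smul_eq_mul, sq, mul_le_mul_iff_right₀ hN] at h3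
  have h4 : √(∑ i, ‖ξ i‖ ^ 2) ≤ √(c ^ 2 * N) :=
    Real.sqrt_le_sqrt ((hcot ξ).trans (mul_le_mul_of_nonneg_left h3 (sq_nonneg _)))
  have h5 : ‖S.mkQ (rad x)‖ ≤ √(c ^ 2 * N) * √(∑ i, ‖x i‖ ^ 2) := by
    rw [← show g (S.mkQ (rad x)) = ‖S.mkQ (rad x)‖ from hgx, h1]
    exact (sum_apply_le ξ x).trans (mul_le_mul_of_nonneg_right h4 (Real.sqrt_nonneg _))
  obtain ⟨f, hf, hf'⟩ := Submodule.Quotient.norm_mk_lt (S.mkQ (rad x))
    (ε := √(c ^ 2 * N) * √(∑ i, ‖x i‖ ^ 2)) (by positivity)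
  have h6 : hat f = x := by
    have := (Submodule.Quotient.eq S).1 hf
    simpa [S, hat_rad', sub_eq_zero] using this
  refine ⟨f, congrFun h6, le_of_mul_le_mul_left ?_ hN⟩
  rw [← norm_sq_H]
  calc _ ≤ (2 * (√(c ^ 2 * N) * √(∑ i, ‖x i‖ ^ 2))) ^ 2 := by gcongr; linarith
    _ = _ := by rw [mul_pow, mul_pow, Real.sq_sqrt hS0, Real.sq_sqrt (by positivity)]; ring

theorem liftB {X : Type*} [NormedAddCommGroup X] [NormedSpace ℝ X]
    (K : Type) [Fintype K] [DecidableEq K] (c : ℝ) (hc : 0 < c)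
    (hcot : ∀ x : K → X, ∑ i, ‖x i‖ ^ 2 ≤ c ^ 2 * avg fun w : V K => ‖∑ i, e (w i) • x i‖ ^ 2)
    (ξ : K → StrongDual ℝ X) :
    ∃ g : V K → StrongDual ℝ X, (∀ i, (avg fun w => e (w i) • g w) = ξ i) ∧
      (avg fun w => ‖g w‖ ^ 2) ≤ c ^ 2 * ∑ i, ‖ξ i‖ ^ 2 := by
  have hN := card_pos (K := K)
  set N := (Fintype.card (V K) : ℝ) with hNd
  have hS0 : 0 ≤ ∑ i, ‖ξ i‖ ^ 2 := sum_nonneg fun _ _ => sq_nonneg _
  let S : Submodule ℝ (H K X) := LinearMap.range (rad (K := K) (X := X)).toLinearMap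
  let φ : S →ₗ[ℝ] ℝ := (∑ i, (ξ i).toLinearMap ∘ₗ .proj i) ∘ₗ hat ∘ₗ S.subtype
  have hφ : ∀ x, φ ⟨rad x, x, rfl⟩ = ∑ i, ξ i (x i) := fun x => by simp [φ, hat_rad']
  set M := √(∑ i, ‖ξ i‖ ^ 2) * (c / √N) with hM
  have hb : ∀ f : S, φ f ≤ M * ‖f‖ := by
    rintro ⟨_, x, rfl⟩
    refine (hφ x).trans_le ((sum_apply_le ξ x).trans ?_)
    rw [hM, mul_assoc]
    refine mul_le_mul_of_nonneg_left (Real.sqrt_le_iff.2 ⟨by positivity, (hcot x).trans_eq ?_⟩)
      (Real.sqrt_nonneg _)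
    rw [mul_pow, div_pow, Real.sq_sqrt hN.le]
    change _ = _ * ‖rad x‖ ^ 2
    simp only [norm_sq_H, rad_apply, ← hNd]
    field_simp
  have hb' : ∀ f : S, ‖φ f‖ ≤ M * ‖f‖ := fun f =>
    abs_le.2 ⟨by simpa [neg_le] using hb (-f), hb f⟩
  obtain ⟨G, hG, hG'⟩ := exists_extension_norm_eq S (φ.mkContinuous M hb')
  have hGM : ‖G‖ ≤ M := hG'.trans_le (φ.mkContinuous_norm_le (by positivity) hb')
  let g : V K → StrongDual ℝ X := fun w => N • G ∘L
    (PiLp.continuousLinearEquiv 2 ℝ fun _ : V K => X).symm.toContinuousLinearMap ∘L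
      .single ℝ (fun _ => X) w
  have h1 : ∀ f : V K → X, ∑ w, g w (f w) = N * G (WithLp.toLp 2 f) := fun f => by
    conv_rhs => rw [← univ_sum_single f, WithLp.toLp_sum, map_sum, mul_sum]
    rfl
  refine ⟨g, fun i => ContinuousLinearMap.ext fun v => ?_, le_of_mul_le_mul_left ?_ hN⟩
  · have h2 : rad (Pi.single i v) = WithLp.toLp 2 fun w : V K => e (w i) • v := by
      ext w
      rw [rad_apply, sum_eq_single i (fun j _ hj => by simp [hj]) (by simp), Pi.single_eq_same]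
    have h3 := (hG ⟨rad (Pi.single i v), _, rfl⟩).trans (hφ _)
    rw [sum_eq_single i (fun j _ hj => by simp [hj]) (by simp), Pi.single_eq_same] at h3
    have h4 := h1 fun w => e (w i) • v
    rw [← h2, h3] at h4
    simp only [map_smul] at h4
    simp only [avg, ← hNd, _root_.sum_apply, _root_.smul_apply, h4]
    rw [smul_eq_mul, inv_mul_cancel_left₀ hN.ne']
  · have := dual_l2 g (N * M) (by positivity) fun f => by
      rw [h1, ← PiLp.norm_eq_of_L2 (WithLp.toLp 2 f : H K X), mul_assoc]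
      exact mul_le_mul_of_nonneg_left ((le_abs_self _).trans ((G.le_opNorm _).trans
        (mul_le_mul_of_nonneg_right hGM (norm_nonneg _)))) hN.le
    rw [sum_eq_avg] at this
    refine this.trans_eq ?_
    rw [hM, mul_pow, mul_pow, div_pow, Real.sq_sqrt hN.le, Real.sq_sqrt hS0]
    field_simp

theorem cotype_sq {Y : Type*} [NormedAddCommGroup Y] [NormedSpace ℝ Y] (q C : ℝ) (hq : 2 ≤ q)
    (h : HasRademacherCotype Y q C) (g : ℕ) (hg : 1 ≤ g) (y : Fin (g ^ ⌈q⌉₊) → Y) :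
    ∑ i, ‖y i‖ ^ 2 ≤ C ^ 2 * ((g : ℝ) ^ ⌈q⌉₊ / (g : ℝ) ^ 2) *
      avg fun w : V (Fin (g ^ ⌈q⌉₊)) => ‖∑ i, e (w i) • y i‖ ^ 2 := by
  have hq0 : 0 < q := by linarith
  have hg1 : (1 : ℝ) ≤ g := by exact_mod_cast hg
  set A := avg fun w : V (Fin (g ^ ⌈q⌉₊)) => ‖∑ i, e (w i) • y i‖ ^ 2 with hA
  have hA0 : 0 ≤ A := avg_nonneg fun _ => sq_nonneg _
  let σ : Bool ≃ ZMod 2 := ⟨fun b => if b then 0 else 1, fun z => z = 0, by decide, by decide⟩
  have hσ : ∀ b, e (σ b) = signVal b := fun b => by cases b <;> simp [σ, signVal]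
  have h1 := h _ y
  have e1 : (signAverage fun ε : Fin (g ^ ⌈q⌉₊) → Bool =>
      ‖∑ i, signVal (ε i) • y i‖ ^ (2 : ℝ)) = A := by
    rw [hA, ← avg_equiv (Equiv.piCongrRight fun _ => σ)]
    simp [signAverage, avg, hσ]
  rw [e1, ← Real.sqrt_eq_rpow] at h1
  set T := ∑ i, ‖y i‖ ^ q with hT
  have hT0 : 0 ≤ T := sum_nonneg fun _ _ => by positivity
  have hS0 : 0 ≤ ∑ i, ‖y i‖ ^ 2 := sum_nonneg fun _ _ => sq_nonneg _
  have h2 := Real.rpow_sum_le_const_mul_sum_rpow_of_nonneg univ (f := fun i => ‖y i‖ ^ 2)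
    (p := q / 2) (by linarith) fun _ _ => sq_nonneg _
  have e2 : ∀ i, (‖y i‖ ^ 2) ^ (q / 2) = ‖y i‖ ^ q := fun i => by
    rw [← Real.rpow_natCast_mul (norm_nonneg _)]; congr 1; push_cast; ring
  simp only [e2, card_univ, Fintype.card_fin, Nat.cast_pow, ← hT] at h2
  have h3 := Real.rpow_le_rpow (by positivity) h2 (z := 2 / q) (by positivity)
  have e3 : T ^ (2 / q) = (T ^ (1 / q)) ^ 2 := by
    rw [← Real.rpow_mul_natCast hT0]; congr 1; push_cast; ring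
  rw [← Real.rpow_mul hS0, show q / 2 * (2 / q) = 1 by field_simp, Real.rpow_one,
    Real.mul_rpow (by positivity) hT0, ← Real.rpow_mul (by positivity), e3,
    show (q / 2 - 1) * (2 / q) = 1 - 2 / q by field_simp, Real.rpow_sub (by positivity),
    Real.rpow_one] at h3
  have h4 : (T ^ (1 / q)) ^ 2 ≤ C ^ 2 * A :=
    (pow_le_pow_left₀ (by positivity) h1 2).trans_eq (by rw [mul_pow, Real.sq_sqrt hA0])
  have h5 : (g : ℝ) ^ 2 ≤ ((g : ℝ) ^ ⌈q⌉₊) ^ (2 / q) := by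
    rw [← Real.rpow_natCast_mul (by positivity), ← Real.rpow_natCast]
    refine Real.rpow_le_rpow_of_exponent_le hg1 ?_
    rw [← mul_div_assoc, le_div_iff₀ hq0]
    push_cast
    linarith [Nat.le_ceil q]
  calc _ ≤ _ := h3
    _ ≤ (g : ℝ) ^ ⌈q⌉₊ / (g : ℝ) ^ 2 * (C ^ 2 * A) := by gcongr
    _ = _ := by ring

end Crest.Agent.R118
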