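import Crest.Agent.R118.Core
import Crest.Agent.R118.Lifts
import Crest.Agent.R118.ExtremalAux

/-! Row 118: the Hadamard pairing is small at some scale. -/

set_option autoImplicit false

namespace Crest.Agent.R118

open Finset Crest.AnalysisR

universe u

theorem hadamard_small {X : Type u} [NormedAddCommGroup X] [NormedSpace ℝ X]
    (hAP : HasApproximationProperty X) (q r C D : ℝ) (hq : 2 ≤ q) (hr : 2 ≤ r)
    (hX : HasRademacherCotype X q C) (hX' : HasRademacherCotype (StrongDual ℝ X) r D) :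
    ∃ n : ℕ, ∀ (F : V (Fin n) → X) (G : V (Fin n) → StrongDual ℝ X),
      (avg fun a => avg fun b => e (a ⬝ᵥ b) * G b (F a)) ≤
        1 / 2 * ((avg fun a => ‖F a‖ ^ 2) + avg fun b => ‖G b‖ ^ 2) / 2 := by
  have hC : 0 < max |C| 1 := lt_max_of_lt_right one_pos
  have hD : 0 < max |D| 1 := lt_max_of_lt_right one_pos
  have hC2 : C ^ 2 ≤ max |C| 1 ^ 2 := by
    rw [← sq_abs]; exact pow_le_pow_left₀ (abs_nonneg _) (le_max_left _ _) 2
  have hD2 : D ^ 2 ≤ max |D| 1 ^ 2 := by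
    rw [← sq_abs]; exact pow_le_pow_left₀ (abs_nonneg _) (le_max_left _ _) 2
  generalize max |C| 1 = C' at hC hC2
  generalize max |D| 1 = D' at hD hD2
  obtain ⟨g, g', mass, hg, hg', -, hcore⟩ := core.{u} ⌈q⌉₊ ⌈r⌉₊
    (Nat.one_le_ceil_iff.2 (by linarith)) (Nat.one_le_ceil_iff.2 (by linarith)) C' (2 * D') hC
    (by linarith)
  have hg0 : (0 : ℝ) < g := by exact_mod_cast hg
  have hg0' : (0 : ℝ) < g' := by exact_mod_cast hg'
  have sA : (D' * √((g : ℝ) ^ ⌈r⌉₊) / g) ^ 2 = D' ^ 2 * ((g : ℝ) ^ ⌈r⌉₊ / (g : ℝ) ^ 2) := by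
    rw [div_pow, mul_pow, Real.sq_sqrt (by positivity)]; ring
  have sB : (C' * √((g' : ℝ) ^ ⌈q⌉₊) / g') ^ 2 = C' ^ 2 * ((g' : ℝ) ^ ⌈q⌉₊ / (g' : ℝ) ^ 2) := by
    rw [div_pow, mul_pow, Real.sq_sqrt (by positivity)]; ring
  obtain ⟨n, hn⟩ := ExtremalAux.extremal hAP (k := g ^ ⌈r⌉₊) (k' := g' ^ ⌈q⌉₊)
    (cA := 2 * D' * (g : ℝ) ^ ⌈r⌉₊ / g) (cB := C' * (g' : ℝ) ^ ⌈q⌉₊ / g') (mass := mass)
    hcore (Nat.one_le_pow _ _ hg) ((2 * (D' * √((g : ℝ) ^ ⌈r⌉₊) / g)) ^ 2)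
    ((C' * √((g' : ℝ) ^ ⌈q⌉₊) / g') ^ 2)
    (liftA (Fin (g ^ ⌈r⌉₊)) _ (by positivity) fun ξ => by
      refine (cotype_sq r D hr hX' g hg ξ).trans ?_
      rw [sA]
      gcongr
      exact avg_nonneg fun _ => sq_nonneg _)
    (by rw [mul_pow, sA]; push_cast; exact le_of_eq (by ring))
    (liftB (Fin (g' ^ ⌈q⌉₊)) _ (by positivity) fun x => by
      refine (cotype_sq q C hq hX g' hg' x).trans ?_
      rw [sB]
      gcongr
      exact avg_nonneg fun _ => sq_nonneg _)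
    (by rw [sB]; push_cast; exact le_of_eq (by ring))
  refine ⟨n, fun F G => ?_⟩
  have := hn F G
  rw [ExtremalAux.pr, ExtremalAux.am] at this
  linarith

end Crest.Agent.R118
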