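import Crest.Agent.R118.Dual

/-! Row 118: Fourier multipliers on the cube. -/

set_option autoImplicit false

namespace Crest.Agent.R118.KC

open Finset

universe u

variable {s : ℕ} {X : Type u} [NormedAddCommGroup X] [NormedSpace ℝ X]

/-- `L₂` of the cube (counting measure). -/
abbrev LL (s : ℕ) (X : Type u) : Type u := PiLp 2 (fun _ : V (Fin s) => X)

/-- The kernel of a multiplier. -/
def ker (m : V (Fin s) → ℝ) (ω : V (Fin s)) : ℝ := ∑ S, m S * e (S ⬝ᵥ ω)

/-- Convolution operator. -/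
noncomputable def cv (X : Type u) [NormedAddCommGroup X] [NormedSpace ℝ X] (k : V (Fin s) → ℝ) :
    LL s X →L[ℝ] LL s X where
  toFun f := WithLp.toLp 2 fun ω => avg fun η => k (ω + η) • f η
  map_add' f g := by
    ext ω
    simp only [PiLp.add_apply, smul_add, avg_add]
  map_smul' c f := by
    ext ω
    simp only [PiLp.smul_apply, RingHom.id_apply, ← avg_smul, smul_comm c]
  cont := by
    refine (PiLp.continuous_toLp 2 _).comp (continuous_pi fun ω => ?_)
    unfold avg
    fun_prop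

lemma cv_apply (k : V (Fin s) → ℝ) (f : LL s X) (ω : V (Fin s)) :
    cv X k f ω = avg fun η => k (ω + η) • f η := rfl

/-- The multiplier calculus. -/
noncomputable def Phi (s : ℕ) (X : Type u) [NormedAddCommGroup X] [NormedSpace ℝ X] :
    (V (Fin s) → ℝ) →L[ℝ] (LL s X →L[ℝ] LL s X) :=
  LinearMap.toContinuousLinearMap
    { toFun := fun m => cv X (ker m)
      map_add' := fun m m' => by
        ext f ω
        simp only [cv_apply, ker, Pi.add_apply, add_mul, sum_add_distrib, add_smul, avg_add,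
          _root_.add_apply, PiLp.add_apply]
      map_smul' := fun c m => by
        ext f ω
        simp only [cv_apply, ker, Pi.smul_apply, smul_eq_mul, mul_assoc, ← mul_sum, mul_smul,
          avg_smul, RingHom.id_apply, _root_.smul_apply, PiLp.smul_apply] }

lemma Phi_apply (m : V (Fin s) → ℝ) : Phi s X m = cv X (ker m) := rfl

lemma avg_smul_const {α : Type*} [Fintype α] (c : α → ℝ) (x : X) :
    (avg fun a => c a • x) = avg c • x := by
  simp only [avg, ← sum_smul, smul_eq_mul, mul_smul]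

lemma ker_conv (m m' : V (Fin s) → ℝ) (ω ζ : V (Fin s)) :
    (avg fun η => ker m (ω + η) * ker m' (η + ζ)) = ker (m * m') (ω + ζ) := by
  have h : ∀ η, ker m (ω + η) * ker m' (η + ζ) =
      ∑ S, ∑ T, (m S * m' T * e (S ⬝ᵥ ω) * e (T ⬝ᵥ ζ)) * e ((S + T) ⬝ᵥ η) := fun η => by
    simp only [ker, sum_mul_sum, dotProduct_add, add_dotProduct, e_add]
    refine sum_congr rfl fun S _ => sum_congr rfl fun T _ => by ring
  simp only [h, avg_sum, avg_mul_left, avg_e_dot, V.add_eq_zero_iff, mul_ite, mul_one, mul_zero,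
    sum_ite_eq, mem_univ, if_true]
  simp only [ker, Pi.mul_apply, dotProduct_add, e_add, mul_assoc]

lemma Phi_mul (m m' : V (Fin s) → ℝ) : Phi s X (m * m') = Phi s X m * Phi s X m' := by
  ext f ω
  simp only [Phi_apply, mul_apply_eq_comp, cv_apply, ← avg_smul, smul_smul]
  rw [avg_comm]
  simp only [avg_smul_const, ker_conv]

lemma avg_ker (m : V (Fin s) → ℝ) : avg (ker m) = m 0 := by
  have : avg (ker m) = avg fun ω => ∑ S, m S * e (S ⬝ᵥ ω) := rfl
  simp only [this, avg_sum, avg_mul_left, avg_e_dot, mul_ite, mul_one, mul_zero, sum_ite_eq',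
    mem_univ, if_true]

lemma norm_cv_le (k : V (Fin s) → ℝ) (h0 : ∀ ω, 0 ≤ k ω) (h1 : avg k ≤ 1) : ‖cv X k‖ ≤ 1 := by
  refine ContinuousLinearMap.opNorm_le_bound _ zero_le_one fun f => ?_
  rw [one_mul, ← sq_le_sq₀ (norm_nonneg _) (norm_nonneg _), PiLp.norm_sq_eq_of_L2,
    PiLp.norm_sq_eq_of_L2]
  calc ∑ ω, ‖cv X k f ω‖ ^ 2 ≤ ∑ ω, avg fun η => k (ω + η) * ‖f η‖ ^ 2 :=
        sum_le_sum fun ω _ => norm_avg_smul_sq_le _ (fun η => k (ω + η)) _
          (fun η => (abs_of_nonneg (h0 _)).le) (by rw [avg_shift']; exact h1)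
    _ = ∑ η, (avg fun ω => k (ω + η)) * ‖f η‖ ^ 2 := by
        simp only [avg, smul_eq_mul, mul_sum, sum_mul, mul_assoc]
        exact sum_comm
    _ ≤ ∑ η, ‖f η‖ ^ 2 := sum_le_sum fun η _ => by
        rw [avg_shift]
        exact mul_le_of_le_one_left (sq_nonneg _) h1

/-- Product multipliers. -/
def mA (A : Fin s → ℝ) (S : V (Fin s)) : ℝ := ∏ i, if S i = 1 then A i else 1

lemma ker_mA (A : Fin s → ℝ) (ω : V (Fin s)) : ker (mA A) ω = ∏ i, (1 + A i * e (ω i)) := by
  have h : ∀ i, 1 + A i * e (ω i) = ∑ x : ZMod 2, (if x = 1 then A i else 1) * e (x * ω i) :=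
    fun i => by rw [sum_zmod2]; simp
  simp only [h, Fintype.prod_sum, ker, mA, dotProduct, e_sum, prod_mul_distrib]

lemma norm_mA (A : Fin s → ℝ) (hA : ∀ i, |A i| ≤ 1) : ‖Phi s X (mA A)‖ ≤ 1 := by
  refine norm_cv_le _ (fun ω => ?_) ?_
  · rw [ker_mA]
    refine prod_nonneg fun i _ => ?_
    have := abs_le.1 (hA i)
    rcases e_cases (ω i) with h | h <;> rw [h] <;> linarith
  · rw [avg_ker]; simp [mA]

/-- The degree of a frequency. -/
def deg (S : V (Fin s)) : ℕ := (univ.filter fun i => S i = 1).card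

lemma pow_deg (x : ℝ) (S : V (Fin s)) : x ^ deg S = mA (fun _ => x) S := by
  rw [mA, ← prod_filter, prod_const, deg]

/-- Bernoulli weights. -/
def wt (x : ℝ) (B : V (Fin s)) : ℝ := ∏ i, if B i = 1 then x else 1 - x

/-- Conditional expectation multipliers. -/
def mB (B : V (Fin s)) : V (Fin s) → ℝ := mA fun i => if B i = 1 then 1 else 0

lemma wt_nonneg {x : ℝ} (hx : x ∈ Set.Icc (0 : ℝ) 1) (B : V (Fin s)) : 0 ≤ wt x B :=
  prod_nonneg fun i _ => by split_ifs <;> linarith [hx.1, hx.2]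

lemma sum_wt (x : ℝ) : ∑ B : V (Fin s), wt x B = 1 := by
  have h := Fintype.prod_sum (fun (_ : Fin s) (b : ZMod 2) => if b = 1 then x else 1 - x)
  simp only [sum_zmod2] at h
  simpa [wt] using h.symm

lemma sum_wt_mB (x : ℝ) (S : V (Fin s)) : ∑ B, wt x B * mB B S = x ^ deg S := by
  have h := Fintype.prod_sum (fun (i : Fin s) (b : ZMod 2) => (if b = 1 then x else 1 - x) *
    (if S i = 1 then (if b = 1 then 1 else 0) else 1))
  simp only [sum_zmod2, prod_mul_distrib] at h
  rw [pow_deg]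
  simp only [wt, mB, mA]
  rw [← h]
  refine prod_congr rfl fun i _ => ?_
  split_ifs <;> simp_all

lemma mB_mul (B : V (Fin s)) : mB B * mB B = mB B := by
  funext S
  simp only [Pi.mul_apply, mB, mA, ← prod_mul_distrib]
  refine prod_congr rfl fun i _ => ?_
  split_ifs <;> simp

lemma norm_mB (B : V (Fin s)) : ‖Phi s X (mB B)‖ ≤ 1 :=
  norm_mA _ fun i => by split_ifs <;> simp

lemma norm_one' : ‖Phi s X 1‖ ≤ 1 := by
  have : (1 : V (Fin s) → ℝ) = mA fun _ => 1 := by funext S; simp [mA]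
  rw [this]
  exact norm_mA _ fun _ => by simp

lemma expand (n : ℕ) (x : ℝ) : (fun S : V (Fin s) => ((1 - x ^ deg S) / 2) ^ 2 ^ n) =
    ((2 : ℝ) ^ 2 ^ n)⁻¹ • ∑ β : V (Fin n) → V (Fin s),
      (∏ a, wt x (β a)) • ∏ a, (1 - mB (β a)) := by
  funext S
  have h1 : 1 - x ^ deg S = ∑ B, wt x B * (1 - mB B S) := by
    simp only [mul_sub, sum_sub_distrib, mul_one, sum_wt, sum_wt_mB]
  have h2 : (1 - x ^ deg S) ^ 2 ^ n = ∏ _a : V (Fin n), (1 - x ^ deg S) := by
    simp [prod_const]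
  rw [div_pow, h2, h1, Fintype.prod_sum]
  simp only [Pi.smul_apply, Finset.sum_apply, Finset.prod_apply, Pi.sub_apply, Pi.one_apply, smul_eq_mul,
    prod_mul_distrib]
  rw [div_eq_inv_mul]

lemma norm_expand (n : ℕ) {x : ℝ} (hx : x ∈ Set.Icc (0 : ℝ) 1)
    (h : ∀ β : V (Fin n) → V (Fin s), ‖Phi s X (∏ a, (1 - mB (β a)))‖ ≤ 3 / 4 * 2 ^ 2 ^ n) :
    ‖Phi s X fun S => ((1 - x ^ deg S) / 2) ^ 2 ^ n‖ ≤ 3 / 4 := by
  rw [expand, map_smul, map_sum, norm_smul, Real.norm_of_nonneg (by positivity),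
    inv_mul_le_iff₀ (by positivity)]
  refine (norm_sum_le _ _).trans ?_
  calc ∑ β : V (Fin n) → V (Fin s), ‖Phi s X ((∏ a, wt x (β a)) • ∏ a, (1 - mB (β a)))‖
      ≤ ∑ β : V (Fin n) → V (Fin s), (∏ a, wt x (β a)) * (3 / 4 * 2 ^ 2 ^ n) :=
        sum_le_sum fun β _ => by
          have h0 : 0 ≤ ∏ a, wt x (β a) := prod_nonneg fun a _ => wt_nonneg hx _
          rw [map_smul, norm_smul, Real.norm_of_nonneg h0]
          exact mul_le_mul_of_nonneg_left (h β) h0
    _ = 2 ^ 2 ^ n * (3 / 4) := by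
        rw [← sum_mul, ← Fintype.prod_sum (fun (_ : V (Fin n)) (B : V (Fin s)) => wt x B)]
        simp only [sum_wt, prod_const_one]
        ring

lemma ker_deg_one (ω : V (Fin s)) :
    ker (fun S => if deg S = 1 then 1 else 0) ω = ∑ i, e (ω i) := by
  have h1 : (univ.filter fun S : V (Fin s) => deg S = 1) =
      univ.image fun i : Fin s => (Pi.single i 1 : V (Fin s)) := by
    ext S
    simp only [mem_filter, mem_univ, true_and, mem_image, deg, card_eq_one]
    constructor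
    · rintro ⟨i, hi⟩
      refine ⟨i, funext fun j => ?_⟩
      have := Finset.ext_iff.1 hi j
      simp only [mem_filter, mem_univ, true_and, mem_singleton] at this
      by_cases hj : j = i
      · rw [this.2 hj, hj, Pi.single_eq_same]
      · rw [Pi.single_eq_of_ne hj]
        exact ((zmod2_cases (S j)).resolve_right fun h => hj (this.1 h)).symm
    · rintro ⟨i, rfl⟩
      refine ⟨i, ?_⟩
      ext j
      by_cases hj : j = i
      · simp [hj]
      · simp [hj]
  simp only [ker, ite_mul, one_mul, zero_mul]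
  rw [← sum_filter, h1, sum_image]
  · simp
  · intro i _ j _ hij
    by_contra h
    have := congrFun hij i
    simp [h] at this

/-- Transfer of the Hadamard bound to `L₂` of the cube. -/
lemma transfer (n : ℕ)
    (h : ∀ (F : V (Fin n) → X) (G : V (Fin n) → StrongDual ℝ X),
      (avg fun a => avg fun b => e (a ⬝ᵥ b) * G b (F a)) ≤
        1 / 2 * ((avg fun a => ‖F a‖ ^ 2) + avg fun b => ‖G b‖ ^ 2) / 2)
    (F : V (Fin n) → LL s X) (G : V (Fin n) → StrongDual ℝ (LL s X)) :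
    (avg fun a => avg fun b => e (a ⬝ᵥ b) * G b (F a)) ≤
      1 / 2 * ((avg fun a => ‖F a‖ ^ 2) + avg fun b => ‖G b‖ ^ 2) / 2 := by
  let ι : (V (Fin s) → X) →L[ℝ] LL s X :=
    (PiLp.continuousLinearEquiv 2 ℝ fun _ : V (Fin s) => X).symm
  let G' : V (Fin n) → V (Fin s) → StrongDual ℝ X := fun b ω =>
    (G b).comp (ι.comp (ContinuousLinearMap.single ℝ (fun _ : V (Fin s) => X) ω))
  have h1 : ∀ b (f : V (Fin s) → X), ∑ ω, G' b ω (f ω) = G b (ι f) := fun b f => by
    simp only [G', ContinuousLinearMap.comp_apply, ← map_sum, ContinuousLinearMap.single_apply,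
      univ_sum_single]
  have h2 : ∀ b, ∑ ω, ‖G' b ω‖ ^ 2 ≤ ‖G b‖ ^ 2 := fun b =>
    dual_l2 _ _ (norm_nonneg _) fun f => by
      rw [h1]
      refine (le_abs_self _).trans (((G b).le_opNorm _).trans (le_of_eq ?_))
      rw [PiLp.norm_eq_of_L2]
      rfl
  have h3 : ∀ a b, G b (F a) = ∑ ω, G' b ω (F a ω) := fun a b => (h1 b _).symm
  have h4 := sum_le_sum fun ω (_ : ω ∈ (univ : Finset (V (Fin s)))) =>
    h (fun a => F a ω) fun b => G' b ω
  have h5 := avg_mono h2
  simp only [h3, mul_sum, avg_sum, PiLp.norm_sq_eq_of_L2]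
  rw [avg_sum] at h5
  refine h4.trans ?_
  rw [← sum_div, ← mul_sum, sum_add_distrib]
  linarith

end Crest.Agent.R118.KC
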