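import Crest.Agent.R118.Basic

/-! Row 118: commuting contractive idempotents. -/

set_option autoImplicit false

namespace Crest.Agent.R118

open Finset

universe u

namespace QL

variable {U : Type} [Fintype U] [DecidableEq U] {ι : Type}

/-- The signed product of the idempotents selected by the zeros of `t`. -/
def P (μ : U → ι → ℝ) (t : V U) : ι → ℝ := ∏ a, if t a = 0 then -μ a else 1

lemma prod_one_sub (μ : U → ι → ℝ) : ∏ a, (1 - μ a) = ∑ t : V U, P μ t := by
  unfold P
  rw [← Fintype.prod_sum (fun a (z : ZMod 2) => if z = 0 then -μ a else 1)]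
  refine prod_congr rfl fun a _ => ?_
  rw [sum_zmod2]
  simp [sub_eq_neg_add]

lemma P_update {μ : U → ι → ℝ} (hμ : ∀ a, μ a * μ a = μ a) (t : V U) (a : U) :
    e (t a) • (P μ t * μ a) = P μ (Function.update t a 0) := by
  unfold P
  rw [← mul_prod_erase univ _ (mem_univ a), ← mul_prod_erase univ _ (mem_univ a)]
  have : ∏ x ∈ univ.erase a, (if Function.update t a 0 x = 0 then -μ x else 1) =
      ∏ x ∈ univ.erase a, (if t x = 0 then -μ x else 1) :=
    prod_congr rfl fun x hx => by rw [Function.update_of_ne (ne_of_mem_erase hx)]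
  rw [this, mul_right_comm]
  rcases zmod2_cases (t a) with h | h
  · simp [h, hμ]
  · simp [h]

omit [Fintype U] in
lemma update_cases (t : V U) (a : U) :
    Function.update t a 0 = t ∨ Function.update t a 0 = t + Pi.single a 1 := by
  rcases zmod2_cases (t a) with h | h
  · left; rw [← h, Function.update_eq_self]
  · right
    funext x
    by_cases hx : x = a
    · subst hx; simp [h, add_self2]
    · simp [hx]

end QL

open QL in
theorem qlemma {E : Type*} [NormedAddCommGroup E] [NormedSpace ℝ E] (n : ℕ)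
    (h : ∀ (F : V (Fin n) → E) (G : V (Fin n) → StrongDual ℝ E),
      (avg fun a => avg fun b => e (a ⬝ᵥ b) * G b (F a)) ≤
        1 / 2 * ((avg fun a => ‖F a‖ ^ 2) + avg fun b => ‖G b‖ ^ 2) / 2)
    (ι : Type) [Fintype ι] (Φ : (ι → ℝ) →L[ℝ] (E →L[ℝ] E))
    (hmul : ∀ m m', Φ (m * m') = Φ m * Φ m') (h1 : ‖Φ 1‖ ≤ 1)
    (μ : V (Fin n) → ι → ℝ) (hμ : ∀ a, μ a * μ a = μ a) (hn : ∀ a, ‖Φ (μ a)‖ ≤ 1) :
    ‖Φ (∏ a, (1 - μ a))‖ ≤ 3 / 4 * 2 ^ (2 ^ n) := by
  have hP : ∀ t, ‖Φ (P μ t)‖ ≤ 1 := fun t => by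
    refine prod_induction _ (fun m => ‖Φ m‖ ≤ 1) (fun m m' hm hm' => ?_) h1 fun a _ => ?_
    · rw [hmul]
      exact (norm_mul_le _ _).trans (mul_le_one₀ hm (norm_nonneg _) hm')
    · split_ifs
      · simpa using hn a
      · exact h1
  refine ContinuousLinearMap.opNorm_le_of_unit_norm (by positivity) fun x hx => ?_
  obtain ⟨ξ, hξ, hξx⟩ := exists_dual_vector'' ℝ (Φ (∏ a, (1 - μ a)) x)
  set K : V (V (Fin n)) → ℝ := fun t => ξ (Φ (P μ t) x) with hK
  have happ : ∀ T : E →L[ℝ] E, ‖T‖ ≤ 1 → ‖T x‖ ≤ 1 := fun T hT =>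
    (T.le_opNorm x).trans (by rw [hx, mul_one]; exact hT)
  have hK1 : ∀ t, K t ≤ 1 := fun t =>
    (le_abs_self _).trans ((ξ.le_opNorm _).trans (mul_le_one₀ hξ (norm_nonneg _) (happ _ (hP t))))
  have h2 : ∀ s : V (V (Fin n)),
      (avg fun a => avg fun b => K (Function.update (s + fun a' => a' ⬝ᵥ b) a 0)) ≤ 1 / 2 := by
    intro s
    have h3 := h (fun a => e (s a) • Φ (μ a) x) fun b => ξ.comp (Φ (P μ (s + fun a' => a' ⬝ᵥ b)))
    have h4 : (avg fun a => ‖e (s a) • Φ (μ a) x‖ ^ 2) ≤ 1 := avg_le_of_le fun a => by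
      rw [norm_smul, Real.norm_eq_abs, abs_e, one_mul]
      exact pow_le_one₀ (norm_nonneg _) (happ _ (hn a))
    have h5 : (avg fun b : V (Fin n) => ‖ξ.comp (Φ (P μ (s + fun a' => a' ⬝ᵥ b)))‖ ^ 2) ≤ 1 :=
      avg_le_of_le fun b => pow_le_one₀ (norm_nonneg _)
        ((ξ.opNorm_comp_le _).trans (mul_le_one₀ hξ (norm_nonneg _) (hP _)))
    refine le_trans (le_of_eq ?_) (h3.trans (by linarith))
    congr 1; funext a; congr 1; funext b
    simp only [hK, ← P_update hμ, hmul, map_smul, Pi.add_apply, e_add, smul_eq_mul,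
      ContinuousLinearMap.smul_apply, ContinuousLinearMap.comp_apply, ContinuousLinearMap.mul_apply]
    ring
  have h3 : (avg fun a => avg fun t => K (Function.update t a 0)) ≤ 1 / 2 := by
    refine le_trans (le_of_eq ?_) (avg_le_of_le h2)
    rw [avg_comm (fun s a => avg fun b => K (Function.update (s + fun a' => a' ⬝ᵥ b) a 0))]
    congr 1; funext a
    rw [avg_comm]
    simp only [avg_shift fun t => K (Function.update t a 0), avg_const]
  have h4 : ∀ a, 2 * avg K - 1 ≤ avg fun t => K (Function.update t a 0) := fun a => by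
    have h5 : (avg fun t => K t + K (t + Pi.single a 1) - 1) ≤
        avg fun t => K (Function.update t a 0) := avg_mono fun t => by
      rcases update_cases t a with h | h <;> rw [h]
      · linarith [hK1 (t + Pi.single a 1)]
      · linarith [hK1 t]
    rw [avg_sub, avg_add, avg_shift, avg_const] at h5
    linarith
  have h5 : avg K ≤ 3 / 4 := by
    have := avg_mono (f := fun _ => 2 * avg K - 1) h4
    rw [avg_const] at this
    linarith
  have h6 : ‖Φ (∏ a, (1 - μ a)) x‖ = ∑ t, K t := by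
    rw [RCLike.ofReal_real_eq_id, id] at hξx
    rw [← hξx, QL.prod_one_sub]
    simp [hK, map_sum]
  have h7 : (Fintype.card (V (V (Fin n))) : ℝ) = 2 ^ 2 ^ n := by
    rw [card_V]; simp
  rw [avg, h7, smul_eq_mul, inv_mul_le_iff₀ (by positivity)] at h5
  rw [h6]
  linarith

end Crest.Agent.R118
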