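import Crest.Agent.R118.KConvex1
import Crest.Agent.R118.QLemma
import Crest.Prelude.Def_Rademacher

/-! Row 118: K-convexity from a bound on the degree one multiplier. -/

set_option autoImplicit false

namespace Crest.Agent.R118.KC

open Finset Crest.AnalysisR

universe u

/-- Booleans as elements of `F₂`. -/
def σ : Bool ≃ ZMod 2 := ⟨fun b => if b then 0 else 1, fun x => decide (x = 0), by decide, by decide⟩

lemma e_σ (b : Bool) : e (σ b) = signVal b := by cases b <;> simp [σ, signVal]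

lemma isKConvex_of {X : Type u} [NormedAddCommGroup X] [NormedSpace ℝ X] (K : ℝ)
    (hK : ∀ s : ℕ, ‖Phi s X fun S => if deg S = 1 then 1 else 0‖ ≤ K) : IsKConvex X := by
  refine ⟨K, fun s f => ?_⟩
  let τ : (Fin s → Bool) ≃ V (Fin s) := Equiv.piCongrRight fun _ => σ
  have hτ : ∀ ε i, e (τ ε i) = signVal (ε i) := fun ε i => e_σ _
  let F : LL s X := WithLp.toLp 2 fun ω => f (τ.symm ω)
  have hF : ∀ ε, F (τ ε) = f ε := fun ε => by simp [F]
  have h1 := (Phi s X fun S => if deg S = 1 then 1 else 0).le_of_opNorm_le (hK s) F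
  have h2 := pow_le_pow_left₀ (norm_nonneg _) h1 2
  rw [mul_pow, PiLp.norm_sq_eq_of_L2, PiLp.norm_sq_eq_of_L2, ← τ.sum_comp, ← τ.sum_comp] at h2
  have h3 : ∀ ε, (Phi s X fun S => if deg S = 1 then 1 else 0) F (τ ε) =
      ∑ i, signVal (ε i) • (((2 : ℝ) ^ s)⁻¹ • ∑ η : Fin s → Bool, signVal (η i) • f η) := by
    intro ε
    simp only [Phi_apply, cv_apply, ker_deg_one, Pi.add_apply, e_add, sum_smul, avg_sum, mul_smul,
      avg_smul, hτ]
    refine sum_congr rfl fun i _ => ?_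
    rw [avg, card_V, Fintype.card_fin, ← τ.sum_comp]
    simp only [hτ, hF]
  simp only [h3, hF] at h2
  simp only [signAverage, Real.rpow_two]
  rw [mul_left_comm]
  exact mul_le_mul_of_nonneg_left h2 (by positivity)

theorem kconvex_of (hA : ∀ N : ℕ, 1 ≤ N → ∃ K : ℝ,
    ∀ {R : Type u} [NormedRing R] [NormedAlgebra ℝ R] [CompleteSpace R]
      (ι : Type) [Fintype ι] (deg : ι → ℕ) (Φ : (ι → ℝ) →L[ℝ] R),
      (∀ m m', Φ (m * m') = Φ m * Φ m') →
      (∀ x ∈ Set.Icc (0 : ℝ) 1, ‖Φ fun i => x ^ deg i‖ ≤ 1) →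
      (∀ x ∈ Set.Icc (0 : ℝ) 1, ‖Φ fun i => ((1 - x ^ deg i) / 2) ^ N‖ ≤ 3 / 4) →
      ‖Φ fun i => if deg i = 1 then 1 else 0‖ ≤ K)
    {X : Type u} [NormedAddCommGroup X] [NormedSpace ℝ X] [CompleteSpace X] (n : ℕ)
    (h : ∀ (F : V (Fin n) → X) (G : V (Fin n) → StrongDual ℝ X),
      (avg fun a => avg fun b => e (a ⬝ᵥ b) * G b (F a)) ≤
        1 / 2 * ((avg fun a => ‖F a‖ ^ 2) + avg fun b => ‖G b‖ ^ 2) / 2) :
    IsKConvex X := by
  obtain ⟨K, hK⟩ := hA (2 ^ n) Nat.one_le_two_pow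
  refine isKConvex_of K fun s => hK (V (Fin s)) deg (Phi s X) Phi_mul (fun x hx => ?_)
    fun x hx => norm_expand n hx fun β => ?_
  · simp only [pow_deg]
    exact norm_mA _ fun _ => abs_le.2 ⟨by linarith [hx.1], hx.2⟩
  · exact qlemma n (transfer n h) (V (Fin s)) (Phi s X) Phi_mul norm_one' (fun a => mB (β a))
      (fun a => mB_mul _) fun a => norm_mB _

end Crest.Agent.R118.KC
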