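import Crest.Agent.R118.Basic

/-! Row 118: the `A`-side analysis (lifts seen through one functional). -/

set_option autoImplicit false

namespace Crest.Agent.R118

open Finset

section poly
variable {K : Type} [Fintype K] [DecidableEq K]

lemma avg_prod_pi {β : Type*} [Fintype β] (φ : K → β → ℝ) :
    (avg fun v : K → β => ∏ i, φ i (v i)) = ∏ i, avg (φ i) := by
  simp only [avg, smul_eq_mul, prod_mul_distrib, prod_const, card_univ, Fintype.card_pi,
    Nat.cast_pow, inv_pow]
  rw [Finset.prod_univ_sum, Fintype.piFinset_univ]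

lemma avg_zmod2 (φ : ZMod 2 → ℝ) : avg φ = (φ 0 + φ 1) / 2 := by
  simp only [avg, sum_zmod2, ZMod.card, smul_eq_mul]; push_cast; ring

/-- The noise polynomial of a function on the cube. -/
noncomputable def pf (h : V K → ℝ) (y : ℝ) : ℝ := avg fun v => (∏ i, (1 + y * e (v i))) * h v

/-- Odd part of a function on the cube. -/
noncomputable def oddP (h : V K → ℝ) (v : V K) : ℝ := (h v - h (v + 1)) / 2

lemma avg_weight (y : ℝ) : (avg fun v : V K => ∏ i, (1 + y * e (v i))) = 1 := by
  rw [avg_prod_pi fun _ x => 1 + y * e x]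
  exact prod_eq_one fun i _ => by rw [avg_zmod2]; simp; ring

lemma e_add_one (x : ZMod 2) : e (x + 1) = -e x := by simp [e_add]

lemma pf_odd (h : V K → ℝ) (y : ℝ) : (pf h y - pf h (-y)) / 2 = pf (oddP h) y := by
  have h1 : pf h (-y) = avg fun v => (∏ i, (1 + y * e (v i))) * h (v + 1) := by
    rw [pf, ← avg_shift _ (1 : V K)]
    simp [e_add_one]
  rw [h1, pf, pf, ← avg_sub, ← avg_div]
  congr 1; funext v; simp only [oddP]; ring

lemma abs_pf_le {h : V K → ℝ} {b y : ℝ} (hb : ∀ v, |h v| ≤ b) (hy : |y| ≤ 1) : |pf h y| ≤ b := by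
  have hw : ∀ v : V K, 0 ≤ ∏ i, (1 + y * e (v i)) := fun v => prod_nonneg fun i _ => by
    have : |y * e (v i)| ≤ 1 := by rw [abs_mul, abs_e, mul_one]; exact hy
    linarith [(abs_le.mp this).1]
  refine (abs_avg_le _).trans ?_
  calc _ ≤ avg fun v : V K => (∏ i, (1 + y * e (v i))) * b := avg_mono fun v => by
        rw [abs_mul, abs_of_nonneg (hw v)]; exact mul_le_mul_of_nonneg_left (hb v) (hw v)
    _ = b := by rw [avg_mul_right, avg_weight, one_mul]

lemma prod_remainder {α : Type*} [DecidableEq α] (s : Finset α) (a : α → ℝ) {y : ℝ} (hy : 0 ≤ y)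
    (ha : ∀ i, |a i| ≤ y) (hs : s.card * y ≤ 1) :
    |∏ i ∈ s, (1 + a i) - 1 - ∑ i ∈ s, a i| ≤ (s.card * y) ^ 2 := by
  induction s using Finset.induction_on with
  | empty => simp
  | insert i s hi ih =>
    rw [card_insert_of_notMem hi] at hs ⊢
    push_cast at hs ⊢
    have hn : (0 : ℝ) ≤ s.card := by positivity
    have hs' : s.card * y ≤ 1 := by nlinarith
    have ih := ih hs'
    have hsum : |∑ i ∈ s, a i| ≤ s.card * y := by
      refine (abs_sum_le_sum_abs _ _).trans ?_
      simpa using sum_le_card_nsmul s (fun i => |a i|) y fun i _ => ha i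
    rw [prod_insert hi, sum_insert hi]
    set R := ∏ i ∈ s, (1 + a i) - 1 - ∑ i ∈ s, a i
    have e1 : (1 + a i) * ∏ i ∈ s, (1 + a i) - 1 - (a i + ∑ i ∈ s, a i) =
        R * (1 + a i) + a i * ∑ i ∈ s, a i := by simp only [R]; ring
    rw [e1]
    have h1 : |1 + a i| ≤ 1 + y := (abs_add_le _ _).trans (by simpa using ha i)
    calc _ ≤ |R| * |1 + a i| + |a i| * |∑ i ∈ s, a i| := by
          rw [← abs_mul, ← abs_mul]; exact abs_add_le _ _
      _ ≤ (s.card * y) ^ 2 * (1 + y) + y * (s.card * y) := by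
          gcongr
          exact ha i
      _ ≤ _ := by
          have : s.card * y * (s.card * y ^ 2) ≤ 1 * (s.card * y ^ 2) := by gcongr
          nlinarith [sq_nonneg y]

lemma pf_lower {h : V K → ℝ} {b y β : ℝ} (hb : ∀ v, |h v| ≤ b) (hy : 0 ≤ y)
    (hk : Fintype.card K * y ≤ 1) (h0 : avg h = 0) (h1 : ∀ i, (avg fun v => e (v i) * h v) = β) :
    Fintype.card K * β * y - b * (Fintype.card K * y) ^ 2 ≤ pf h y := by
  have e1 : pf h y = avg h + (∑ i, y * avg fun v => e (v i) * h v) +
      avg fun v => (∏ i, (1 + y * e (v i)) - 1 - ∑ i, y * e (v i)) * h v := by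
    simp only [← avg_mul_left, ← avg_sum, ← avg_add, pf]
    congr 1; funext v
    simp only [← mul_assoc, ← sum_mul]; ring
  have e2 : |avg fun v => (∏ i, (1 + y * e (v i)) - 1 - ∑ i, y * e (v i)) * h v| ≤
      (Fintype.card K * y) ^ 2 * b := by
    refine (abs_avg_le _).trans (avg_le_of_le fun v => ?_)
    rw [abs_mul]
    have := prod_remainder univ (fun i => y * e (v i)) hy
      (fun i => by rw [abs_mul, abs_e, mul_one, abs_of_nonneg hy]) hk
    exact mul_le_mul this (hb v) (abs_nonneg _) (sq_nonneg _)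
  rw [e1, h0]
  simp only [h1, sum_const, card_univ, nsmul_eq_mul]
  nlinarith [(abs_le.mp e2).1]

lemma avg_oddP (h : V K → ℝ) : avg (oddP h) = 0 := by
  unfold oddP
  rw [avg_div, avg_sub, avg_shift, sub_self, zero_div]

lemma avg_e_oddP (h : V K → ℝ) (i : K) :
    (avg fun v => e (v i) * oddP h v) = avg fun v => e (v i) * h v := by
  have h1 : (avg fun v => e (v i) * h (v + 1)) = -avg fun v => e (v i) * h v := by
    rw [← avg_neg, ← avg_shift (fun v => -(e (v i) * h v)) (1 : V K)]
    simp [e_add_one]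
  have : (avg fun v => e (v i) * oddP h v) =
      ((avg fun v => e (v i) * h v) - avg fun v => e (v i) * h (v + 1)) / 2 := by
    rw [← avg_sub, ← avg_div]; congr 1; funext v; simp only [oddP]; ring
  rw [this, h1]; ring

lemma ind_eq (a b : ZMod 2) : (if a = b then (1 : ℝ) else 0) = (1 + e b * e a) / 2 := by
  rcases zmod2_cases a with rfl | rfl <;> rcases zmod2_cases b with rfl | rfl <;> simp

/-- Independent coordinates with law `π` produce the noise polynomial. -/
lemma mixture {X : Type*} [Fintype X] (π : X → ℝ) (hπ : ∑ x, π x = 1) (θ : X → ZMod 2)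
    (h : V K → ℝ) :
    ∑ P : K → X, (∏ i, π (P i)) * h (fun i => θ (P i)) = pf h (∑ x, π x * e (θ x)) := by
  have h1 : ∀ w : V K, h w = ∑ v : V K, (∏ i, if v i = w i then (1 : ℝ) else 0) * h v := by
    intro w
    rw [Finset.sum_eq_single w]
    · simp
    · intro v _ hv
      obtain ⟨i, hi⟩ := Function.ne_iff.mp hv
      rw [prod_eq_zero (mem_univ i) (by simp [hi]), zero_mul]
    · simp
  have h2 : ∀ v : V K, ∑ P : K → X, ∏ i, (π (P i) * if v i = θ (P i) then (1 : ℝ) else 0) =
      (2 ^ Fintype.card K : ℝ)⁻¹ * ∏ i, (1 + (∑ x, π x * e (θ x)) * e (v i)) := by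
    intro v
    have := Finset.prod_univ_sum (fun _ : K => (univ : Finset X))
      fun i x => π x * if v i = θ x then (1 : ℝ) else 0
    rw [Fintype.piFinset_univ] at this
    rw [← this, ← inv_pow, ← card_univ, ← prod_const, ← prod_mul_distrib]
    refine prod_congr rfl fun i _ => ?_
    simp only [ind_eq, sum_mul]
    rw [← hπ, ← sum_add_distrib, mul_sum]
    simp only [hπ]
    exact sum_congr rfl fun x _ => by ring
  calc _ = ∑ P : K → X, ∑ v : V K,
        (∏ i, (π (P i) * if v i = θ (P i) then (1 : ℝ) else 0)) * h v := by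
        refine sum_congr rfl fun P _ => ?_
        rw [h1 (fun i => θ (P i)), mul_sum]
        exact sum_congr rfl fun v _ => by rw [prod_mul_distrib, mul_assoc]
    _ = _ := by
        rw [sum_comm]
        simp only [← sum_mul, h2, pf, avg, card_V, smul_eq_mul, mul_sum, mul_assoc]

end poly

section family
variable {W : Type*} [NormedAddCommGroup W] [NormedSpace ℝ W]
  {M K K' : Type} [Fintype M] [DecidableEq M] [Fintype K] [DecidableEq K]
  [Fintype K'] [DecidableEq K']

/-- The tuple of points attached to free coordinates `y`. -/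
def tup (y : K → V M × V K') : K → V M × V K × V K' := fun i => ((y i).1, Pi.single i 1, (y i).2)

/-- Exponent of the pairing of `tup y i` with `(d, φ, e_j)`. -/
def xexp (y : K → V M × V K') (d : V M) (φ : V K) (j : K') : V K :=
  fun i => (y i).1 ⬝ᵥ d + φ i + (y i).2 j

/-- The lift seen through the functionals of column `j`. -/
noncomputable def hfun (f : (K → V M × V K × V K') → V K → W →ₗ[ℝ] ℝ)
    (G : V M × V K × V K' → W) (j : K') (v : V K) : ℝ :=
  avg fun d : V M => avg fun y : K → V M × V K' => avg fun φ : V K =>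
    f (tup y) (v + xexp y d φ j) (G (d, φ, Pi.single j 1))

lemma hfun_lin (F : V M × V K × V K' → W →ₗ[ℝ] ℝ) (G : V M × V K × V K' → W) (β : ℝ)
    (hFG : ∀ a b, F a (G b) = β * e (a.1 ⬝ᵥ b.1 + a.2.1 ⬝ᵥ b.2.1 + a.2.2 ⬝ᵥ b.2.2))
    (f : (K → V M × V K × V K') → V K → W →ₗ[ℝ] ℝ)
    (hf : ∀ a i, (avg fun w => e (w i) • f a w) = F (a i)) (j : K') (i : K) :
    (avg fun v => e (v i) * hfun f G j v) = β := by
  have key : ∀ d y φ, (avg fun v : V K =>
      e (v i) * f (tup y) (v + xexp y d φ j) (G (d, φ, Pi.single j 1))) = β := by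
    intro d y φ
    rw [← avg_shift _ (xexp y d φ j)]
    simp only [add_assoc, V.add_self, add_zero, Pi.add_apply, e_add]
    have h1 := congrArg (fun l => l (G (d, φ, Pi.single j 1))) (hf (tup y) i)
    simp only [avg_apply, LinearMap.smul_apply, smul_eq_mul, hFG, tup, single_dotProduct,
      dotProduct_single, one_mul, mul_one] at h1
    have h2 : (avg fun w : V K => e (w i) * e (xexp y d φ j i) *
        f (tup y) w (G (d, φ, Pi.single j 1))) =
        e (xexp y d φ j i) * avg fun w : V K => e (w i) * f (tup y) w (G (d, φ, Pi.single j 1)) := by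
      rw [← avg_mul_left]; congr 1; funext w; ring
    rw [h2, h1, xexp, mul_left_comm, e_mul_self, mul_one]
  simp only [hfun, ← avg_mul_left]
  rw [avg_comm]
  have : ∀ d : V M, (avg fun v : V K => avg fun y : K → V M × V K' => avg fun φ : V K =>
      e (v i) * f (tup y) (v + xexp y d φ j) (G (d, φ, Pi.single j 1))) = β := by
    intro d
    rw [avg_comm]
    have : ∀ y : K → V M × V K', (avg fun v : V K => avg fun φ : V K =>
        e (v i) * f (tup y) (v + xexp y d φ j) (G (d, φ, Pi.single j 1))) = β := by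
      intro y
      rw [avg_comm]
      simp only [key, avg_const]
    simp only [this, avg_const]
  simp only [this, avg_const]

variable {T : Type} [Fintype T] [DecidableEq T]

/-- The structured shift of the tuple. -/
def shf (P : K → V T × ZMod 2) (c : T → V M) (ψ : T → V K') : K → V M × V K' :=
  fun i => (∑ t, (P i).1 t • c t, ∑ t, (P i).1 t • ψ t)

/-- The point of column `j` on the rectangle given by `(r, φ)`. -/
def bpt (r : K → V M × V K') (φ : V K) (d : V M) (j : K') : V M × V K × V K' :=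
  (d, φ + fun i => (r i).1 ⬝ᵥ d + (r i).2 j, Pi.single j 1)

lemma claim1 (f : (K → V M × V K × V K') → V K → W →ₗ[ℝ] ℝ) (G : V M × V K × V K' → W)
    (P : K → V T × ZMod 2) (φ0 : V T → ℝ) (j : K') :
    (avg fun r : K → V M × V K' => avg fun φ : V K =>
      avg fun c : T → V M => avg fun ψ : T → V K' => avg fun d : V M =>
        φ0 (fun t => c t ⬝ᵥ d + ψ t j) *
          f (tup (r + shf P c ψ)) (fun i => (P i).2 + φ i) (G (bpt r φ d j))) =
      avg fun u : V T => φ0 u * hfun f G j fun i => (P i).2 + (P i).1 ⬝ᵥ u := by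
  set Ψ : V M → V K → ℝ := fun d v => avg fun y : K → V M × V K' => avg fun φ : V K =>
    f (tup y) (v + xexp y d φ j) (G (d, φ, Pi.single j 1)) with hΨ
  have key : ∀ c ψ d, (avg fun r : K → V M × V K' => avg fun φ : V K =>
      f (tup (r + shf P c ψ)) (fun i => (P i).2 + φ i) (G (bpt r φ d j))) =
      Ψ d fun i => (P i).2 + (P i).1 ⬝ᵥ fun t => c t ⬝ᵥ d + ψ t j := by
    intro c ψ d
    rw [← avg_shift _ (shf P c ψ)]
    simp only [hΨ]
    congr 1; funext y
    have hs : y + shf P c ψ + shf P c ψ = y := by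
      funext i
      simp only [Pi.add_apply, add_assoc]
      rw [Prod.ext_iff]
      simp [V.add_self]
    rw [hs, ← avg_shift _ fun i => ((y + shf P c ψ) i).1 ⬝ᵥ d + ((y + shf P c ψ) i).2 j]
    congr 1; funext φ
    simp only [bpt, add_assoc, V.add_self, add_zero]
    congr 2
    funext i
    simp only [Pi.add_apply, xexp, shf, Prod.fst_add, Prod.snd_add, add_dotProduct,
      sum_dotProduct, smul_dotProduct, smul_eq_mul, Finset.sum_apply, Pi.smul_apply]
    simp only [dotProduct, mul_add, sum_add_distrib]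
    ring
  calc _ = avg fun c : T → V M => avg fun ψ : T → V K' => avg fun d : V M =>
        avg fun r : K → V M × V K' => avg fun φ : V K =>
          φ0 (fun t => c t ⬝ᵥ d + ψ t j) *
            f (tup (r + shf P c ψ)) (fun i => (P i).2 + φ i) (G (bpt r φ d j)) := by
        rw [← avg_prod (fun z : (K → V M × V K') × V K =>
          avg fun c : T → V M => avg fun ψ : T → V K' => avg fun d : V M =>
            φ0 (fun t => c t ⬝ᵥ d + ψ t j) *
              f (tup (z.1 + shf P c ψ)) (fun i => (P i).2 + z.2 i) (G (bpt z.1 z.2 d j))),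
          avg_comm]
        congr 1; funext c
        rw [avg_comm]
        congr 1; funext ψ
        rw [avg_comm]
        congr 1; funext d
        rw [avg_prod]
    _ = avg fun c : T → V M => avg fun d : V M => avg fun ψ : T → V K' =>
          φ0 (fun t => c t ⬝ᵥ d + ψ t j) *
            Ψ d fun i => (P i).2 + (P i).1 ⬝ᵥ fun t => c t ⬝ᵥ d + ψ t j := by
        congr 1; funext c
        rw [avg_comm]
        simp only [avg_mul_left, key]
    _ = avg fun d : V M => avg fun u : V T => φ0 u * Ψ d fun i => (P i).2 + (P i).1 ⬝ᵥ u := by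
        have : ∀ (c : T → V M) (d : V M), (avg fun ψ : T → V K' =>
            φ0 (fun t => c t ⬝ᵥ d + ψ t j) *
              Ψ d fun i => (P i).2 + (P i).1 ⬝ᵥ fun t => c t ⬝ᵥ d + ψ t j) =
            avg fun u : V T => φ0 u * Ψ d fun i => (P i).2 + (P i).1 ⬝ᵥ u := fun c d =>
          avg_comp_of_section (fun (ψ : T → V K') => fun t => c t ⬝ᵥ d + ψ t j)
            (fun u t => Pi.single j (u t)) (fun ψ u => by funext t; simp [add_assoc])
            fun u => φ0 u * Ψ d fun i => (P i).2 + (P i).1 ⬝ᵥ u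
        simp only [this, avg_const]
    _ = _ := by
        rw [avg_comm]
        simp only [avg_mul_left, hfun, hΨ]

lemma size_avg (s : (K → V M × V K × V K') → V K → ℝ) {Θ2 : ℝ} (hs : ∀ a, avg (s a) ≤ Θ2)
    (P : K → V T × ZMod 2) :
    (avg fun r : K → V M × V K' => avg fun φ : V K =>
      avg fun c : T → V M => avg fun ψ : T → V K' =>
        s (tup (r + shf P c ψ)) fun i => (P i).2 + φ i) ≤ Θ2 := by
  refine avg_le_of_le fun r => ?_
  rw [avg_comm]
  refine avg_le_of_le fun c => ?_
  rw [avg_comm]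
  refine avg_le_of_le fun ψ => ?_
  exact (avg_shift' (s (tup (r + shf P c ψ))) fun i => (P i).2).le.trans (hs _)

lemma adm_smul_e {Adm : (W →ₗ[ℝ] ℝ) → ℝ → Prop} (hneg : ∀ l s, Adm l s → Adm (-l) s)
    {l : W →ₗ[ℝ] ℝ} {s : ℝ} (h : Adm l s) (x : ZMod 2) : Adm (e x • l) s := by
  rcases e_cases x with h1 | h1 <;> rw [h1]
  · simpa using h
  · have : (-1 : ℝ) • l = -l := by ext w; simp
    rw [this]; exact hneg l s h

lemma abs_oddP_hfun_le {Adm : (W →ₗ[ℝ] ℝ) → ℝ → Prop} (hneg : ∀ l s, Adm l s → Adm (-l) s)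
    (f : (K → V M × V K × V K') → V K → W →ₗ[ℝ] ℝ) (s : (K → V M × V K × V K') → V K → ℝ)
    (hf : ∀ a w, Adm (f a w) (s a w)) {Θ L : ℝ} (hΘ : 0 < Θ) (hs : ∀ a, avg (s a) ≤ Θ ^ 2)
    (G : V M × V K × V K' → W) (hG : ∀ b, ‖G b‖ ≤ 1) (hL : 0 ≤ L) (H : HB Adm M L)
    (j : K') (v : V K) : |oddP (hfun f G j) v| ≤ L * Θ := by
  have key : ∀ x : ZMod 2, e x * oddP (hfun f G j) v ≤ L * Θ := by
    intro x
    let P : K → V Unit × ZMod 2 := fun i => (1, v i)
    have h1 := claim1 f G P (fun u => e x * e (u ())) j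
    have h2 : (avg fun u : V Unit => e x * e (u ()) *
        hfun f G j fun i => (P i).2 + (P i).1 ⬝ᵥ u) = e x * oddP (hfun f G j) v := by
      rw [← avg_equiv (Equiv.funUnique Unit (ZMod 2)).symm, avg_zmod2]
      have e0 : (fun i => (P i).2 + (P i).1 ⬝ᵥ (Equiv.funUnique Unit (ZMod 2)).symm 0) = v := by
        funext i; simp [P, dotProduct]
      have e1 : (fun i => (P i).2 + (P i).1 ⬝ᵥ (Equiv.funUnique Unit (ZMod 2)).symm 1) =
          v + 1 := by
        funext i; simp [P, dotProduct]
      rw [e0, e1]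
      simp [oddP]; ring
    rw [← h2, ← h1]
    have h3 : ∀ r φ, (avg fun c : Unit → V M => avg fun ψ : Unit → V K' => avg fun d : V M =>
        e x * e (c () ⬝ᵥ d + ψ () j) *
          f (tup (r + shf P c ψ)) (fun i => (P i).2 + φ i) (G (bpt r φ d j))) ≤
        L * (Θ⁻¹ * (avg fun c : Unit → V M => avg fun ψ : Unit → V K' =>
          s (tup (r + shf P c ψ)) fun i => (P i).2 + φ i) + Θ) / 2 := by
      intro r φ
      rw [avg_comm, avg_comm (fun c : Unit → V M => fun ψ : Unit → V K' =>
          s (tup (r + shf P c ψ)) fun i => (P i).2 + φ i)]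
      have : ∀ ψ : Unit → V K', (avg fun c : Unit → V M => avg fun d : V M =>
          e x * e (c () ⬝ᵥ d + ψ () j) *
            f (tup (r + shf P c ψ)) (fun i => (P i).2 + φ i) (G (bpt r φ d j))) ≤
          L * (Θ⁻¹ * (avg fun c : Unit → V M =>
            s (tup (r + shf P c ψ)) fun i => (P i).2 + φ i) + Θ) / 2 := by
        intro ψ
        let σ := (Equiv.funUnique Unit (V M)).symm
        have := H.scaled (inv_pos.mpr hΘ)
          (fun a => e (x + ψ () j) • f (tup (r + shf P (σ a) ψ)) fun i => (P i).2 + φ i)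
          (fun a => s (tup (r + shf P (σ a) ψ)) fun i => (P i).2 + φ i)
          (fun d => G (bpt r φ d j)) fun a => adm_smul_e hneg (hf _ _) _
        rw [← avg_equiv σ, ← avg_equiv σ fun c : Unit → V M =>
            s (tup (r + shf P c ψ)) fun i => (P i).2 + φ i]
        have h4 : (avg fun d => ‖G (bpt r φ d j)‖ ^ 2) ≤ 1 :=
          avg_le_of_le fun d => pow_le_one₀ (norm_nonneg _) (hG _)
        refine le_trans (le_of_eq ?_) (this.trans ?_)
        · congr 1; funext a; congr 1; funext d
          simp only [LinearMap.smul_apply, smul_eq_mul, e_add, σ, Equiv.funUnique_symm_apply,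
            uniqueElim_const]
          ring
        · rw [inv_inv]
          have : Θ * (avg fun d => ‖G (bpt r φ d j)‖ ^ 2) ≤ Θ := mul_le_of_le_one_right hΘ.le h4
          gcongr
      refine (avg_mono this).trans (le_of_eq ?_)
      simp only [avg_div, avg_mul_left, avg_add, avg_const]
    refine (avg_mono fun r => avg_mono fun φ => h3 r φ).trans ?_
    simp only [avg_div, avg_mul_left, avg_add, avg_const]
    have h5 := mul_le_mul_of_nonneg_left (size_avg s hs P) (inv_pos.mpr hΘ).le
    have h6 : Θ⁻¹ * Θ ^ 2 = Θ := by field_simp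
    rw [h6] at h5
    have := mul_le_mul_of_nonneg_left h5 hL
    linarith
  have h0 := key 0
  have h1 := key 1
  simp only [e_zero, e_one, one_mul, neg_mul] at h0 h1
  exact abs_le.mpr ⟨by linarith, h0⟩

end family

end Crest.Agent.R118
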